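import Vale.Agent.P264Z.A.Index
import Vale.Agent.P251.G.BrDeg

/-!
# P264, block A: the degree argument in the Hilbert space
-/

open scoped RealInnerProductSpace
open Set Metric Bornology Vale.Agent.P251.G

namespace Vale.Agent.P264Z.A

variable {H : Type*} [NormedAddCommGroup H] [InnerProductSpace ℝ H]

/-- coordinates along the negative family -/
noncomputable def piL (Q : H →L[ℝ] H →L[ℝ] ℝ) {r : ℕ} (w : Fin r → H) : H →L[ℝ] (Fin r → ℝ) :=
  ContinuousLinearMap.pi fun i => -Q (w i)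

theorem piL_apply (Q : H →L[ℝ] H →L[ℝ] ℝ) {r : ℕ} (w : Fin r → H) (h : H) (i : Fin r) :
    piL Q w h i = -Q (w i) h := by simp [piL]

theorem NegON.piL_sum {Q : H →L[ℝ] H →L[ℝ] ℝ} {r : ℕ} {w : Fin r → H} (hw : NegON Q w)
    (a : Fin r → ℝ) : piL Q w (∑ j, a j • w j) = a := by
  funext i; rw [piL_apply, hw.apply_sum, neg_neg]

theorem sum_add_rem (Q : H →L[ℝ] H →L[ℝ] ℝ) {r : ℕ} (w : Fin r → H) (h : H) :
    ∑ j, piL Q w h j • w j + rem Q w h = h := by
  simp only [piL_apply, rem]; abel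

theorem NegON.Q_split {Q : H →L[ℝ] H →L[ℝ] ℝ} (hs : ∀ v w, Q v w = Q w v) {r : ℕ}
    {w : Fin r → H} (hw : NegON Q w) (a : Fin r → ℝ) (t : ℝ) (h : H) :
    Q (∑ j, a j • w j + t • rem Q w h) (∑ j, a j • w j + t • rem Q w h) =
      -∑ j, a j ^ 2 + t ^ 2 * Q (rem Q w h) (rem Q w h) := by
  have h0 : Q (∑ j, a j • w j) (rem Q w h) = 0 := by
    have h1 : Q (∑ j, a j • w j) = ∑ j, a j • Q (w j) := by simp [map_sum]
    rw [h1, _root_.sum_apply]
    refine Finset.sum_eq_zero fun i _ => ?_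
    rw [smul_apply, hw.apply_rem, smul_zero]
  have h0' : Q (rem Q w h) (∑ j, a j • w j) = 0 := by rw [hs, h0]
  set u := ∑ j, a j • w j with hu
  have h2 : Q u u = -∑ j, a j ^ 2 := hw.sum_sum a
  simp only [map_add, map_smul, add_apply, smul_apply, smul_eq_mul, h0, h0', h2]
  ring

theorem NegON.Q_eq {Q : H →L[ℝ] H →L[ℝ] ℝ} (hs : ∀ v w, Q v w = Q w v) {r : ℕ}
    {w : Fin r → H} (hw : NegON Q w) (h : H) :
    Q h h = -∑ j, piL Q w h j ^ 2 + Q (rem Q w h) (rem Q w h) := by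
  have := hw.Q_split hs (piL Q w h) 1 h
  rw [one_smul, sum_add_rem] at this
  rw [this]; ring

theorem sq_norm_le_sum {r : ℕ} (a : Fin r → ℝ) : ‖a‖ ^ 2 ≤ ∑ j, a j ^ 2 := by
  have h0 : 0 ≤ ∑ j, a j ^ 2 := Finset.sum_nonneg fun _ _ => sq_nonneg _
  have h1 : ‖a‖ ≤ Real.sqrt (∑ j, a j ^ 2) := by
    refine (pi_norm_le_iff_of_nonneg (Real.sqrt_nonneg _)).2 fun i => ?_
    rw [Real.norm_eq_abs]
    exact Real.abs_le_sqrt (Finset.single_le_sum (f := fun j => a j ^ 2)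
      (fun _ _ => sq_nonneg _) (Finset.mem_univ i))
  calc ‖a‖ ^ 2 ≤ Real.sqrt (∑ j, a j ^ 2) ^ 2 := by gcongr
    _ = _ := Real.sq_sqrt h0

/-- **Shooting in the Hilbert space.** -/
theorem shoot_H (Q : H →L[ℝ] H →L[ℝ] ℝ) (hs : ∀ v w, Q v w = Q w v) (S : H →L[ℝ] H) {Γ : ℝ}
    (hΓ : 0 ≤ Γ) (hdp : ∀ v y, Q y y ≤ Q v v - ‖v‖ ^ 2 + Γ * ‖y - S v‖ ^ 2) {r : ℕ}
    {w : Fin r → H} (hw : NegON Q w) (hrem : ∀ h, 0 ≤ Q (rem Q w h) (rem Q w h)) :
    ∃ C0 δ : ℝ, 0 < C0 ∧ 0 < δ ∧ ∀ y : ℕ → (Fin r → ℝ) → H,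
      (∀ a, ‖a‖ ≤ 1 → y 0 a = ∑ i, a i • w i) →
      (∀ k, ContinuousOn (y k) (closedBall 0 1)) →
      (∀ k a, ‖a‖ ≤ 1 → (∀ j ≤ k, ‖y j a‖ ≤ C0) → ‖y (k + 1) a - S (y k a)‖ ≤ δ) →
      ∃ a, ‖a‖ ≤ 1 ∧ ∀ k, ‖y k a‖ ≤ C0 := by
  classical
  have hQ0 : 0 ≤ ‖Q‖ := Q.opNorm_nonneg
  have hS0 : 0 ≤ ‖S‖ := norm_nonneg _
  have hw0 : 0 ≤ ∑ i, ‖w i‖ := Finset.sum_nonneg fun _ _ => norm_nonneg _
  set δ : ℝ := 1 / (2 * (Γ + 1) * (‖Q‖ + 1)) with hδ
  have hδ0 : 0 < δ := by positivity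
  have hδm : δ * (2 * (Γ + 1) * (‖Q‖ + 1)) = 1 := by rw [hδ]; field_simp
  have hδ1 : δ ≤ 1 := by nlinarith [mul_nonneg hΓ hQ0]
  set η : ℝ := Γ * δ ^ 2 with hη
  have hη0 : 0 ≤ η := by positivity
  have hη1 : (‖Q‖ + 1) * η ≤ 1 / 2 := by
    have h1 : (‖Q‖ + 1) * η = δ * (Γ * δ * (‖Q‖ + 1)) := by rw [hη]; ring
    have h2 : Γ * δ * (‖Q‖ + 1) ≤ 1 / 2 := by nlinarith [mul_nonneg hδ0.le hQ0]
    have h3 : 0 ≤ Γ * δ * (‖Q‖ + 1) := by positivity
    nlinarith
  have hη2 : η ≤ 1 / 2 := by nlinarith [mul_nonneg hQ0 hη0]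
  have hη3 : ‖Q‖ * η ≤ 1 / 2 := by nlinarith
  set C0 : ℝ := ∑ i, ‖w i‖ + 2 * ‖S‖ + 2 with hC0
  refine ⟨C0, δ, by positivity, hδ0, fun y hy0 hyc hyst => ?_⟩
  -- one step inequality
  have hdp' : ∀ v z : H, ‖z - S v‖ ≤ δ → Q z z ≤ Q v v - ‖v‖ ^ 2 + η := by
    intro v z hz
    have h1 := hdp v z
    have h2 : Γ * ‖z - S v‖ ^ 2 ≤ Γ * δ ^ 2 := by gcongr
    linarith
  have hneg : ∀ z : H, Q z z < 0 → piL Q w z ≠ 0 := by
    intro z hz h0
    have h1 := hw.Q_eq hs z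
    rw [h0] at h1
    have h2 := hrem z
    simp at h1
    linarith
  -- claim A
  have hA : ∀ a, ‖a‖ ≤ 1 → ∀ k, (∀ j ≤ k, -1 ≤ Q (y j a) (y j a)) →
      (∀ j ≤ k, ‖y j a‖ ≤ C0) ∧ Q (y k a) (y k a) ≤ 1 := by
    intro a ha k
    induction k with
    | zero =>
      intro _
      refine ⟨fun j hj => ?_, ?_⟩
      · obtain rfl : j = 0 := by omega
        rw [hy0 a ha]
        calc ‖∑ i, a i • w i‖ ≤ ∑ i, ‖a i • w i‖ := norm_sum_le _ _
          _ ≤ ∑ i, ‖w i‖ := Finset.sum_le_sum fun i _ => by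
              rw [norm_smul]
              exact mul_le_of_le_one_left (norm_nonneg _) ((norm_le_pi_norm a i).trans ha)
          _ ≤ C0 := by rw [hC0]; linarith
      · rw [hy0 a ha, hw.sum_sum]
        have : 0 ≤ ∑ j, a j ^ 2 := Finset.sum_nonneg fun _ _ => sq_nonneg _
        linarith
    | succ k ih =>
      intro hk
      obtain ⟨h1, h2⟩ := ih fun j hj => hk j (by omega)
      have h3 := hyst k a ha h1
      have h4 := hdp' _ _ h3
      have h5 := hk (k + 1) le_rfl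
      have h6 : ‖y k a‖ ≤ 2 := by nlinarith [norm_nonneg (y k a)]
      refine ⟨fun j hj => ?_, ?_⟩
      · rcases Nat.lt_or_ge j (k + 1) with hj' | hj'
        · exact h1 j (by omega)
        · obtain rfl : j = k + 1 := by omega
          calc ‖y (k + 1) a‖ = ‖(y (k + 1) a - S (y k a)) + S (y k a)‖ := by rw [sub_add_cancel]
            _ ≤ ‖y (k + 1) a - S (y k a)‖ + ‖S (y k a)‖ := norm_add_le _ _
            _ ≤ δ + ‖S‖ * 2 := add_le_add h3 ((S.le_opNorm _).trans (by gcongr))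
            _ ≤ C0 := by rw [hC0]; linarith
      · by_cases hc : η ≤ ‖y k a‖ ^ 2
        · linarith
        · have h7 := (abs_le.1 (abs_Q_le Q (y k a))).2
          have h8 : ‖Q‖ * ‖y k a‖ ^ 2 ≤ ‖Q‖ * η := by gcongr; linarith
          nlinarith [sq_nonneg ‖y k a‖]
  -- claim B
  have hB : ∀ a, ‖a‖ ≤ 1 → ∀ k, (∀ j ≤ k, -1 ≤ Q (y j a) (y j a)) →
      ∀ j ≤ k, Q (y j a) (y j a) ≤ -1 → Q (y k a) (y k a) ≤ -1 := by
    intro a ha k
    induction k with
    | zero =>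
      intro _ j hj h
      obtain rfl : j = 0 := by omega
      exact h
    | succ k ih =>
      intro hk j hj h
      rcases Nat.lt_or_ge j (k + 1) with hj' | hj'
      · have h0 := ih (fun j hj => hk j (by omega)) j (by omega) h
        have h1 := (hA a ha k fun j hj => hk j (by omega)).1
        have h4 := hdp' _ _ (hyst k a ha h1)
        have h7 := (abs_le.1 (abs_Q_le Q (y k a))).1
        by_cases hc : η ≤ ‖y k a‖ ^ 2
        · linarith
        · have h8 : ‖Q‖ * ‖y k a‖ ^ 2 ≤ ‖Q‖ * η := by gcongr; linarith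
          linarith
      · obtain rfl : j = k + 1 := by omega
        exact h
  -- the sets
  have hqc : ∀ k, ContinuousOn (fun a => Q (y k a) (y k a)) (closedBall 0 1) := fun k =>
    (Q.continuous.comp_continuousOn (hyc k)).clm_apply (hyc k)
  set C : ℕ → Set (Fin r → ℝ) := fun k =>
    {a | ‖a‖ ≤ 1 ∧ ∀ j ≤ k, -1 ≤ Q (y j a) (y j a)} with hC
  set W : ℕ → Set (Fin r → ℝ) := fun k =>
    {a | ‖a‖ < 1 ∧ ∀ j ≤ k, -1 < Q (y j a) (y j a)} with hW
  have hCc : ∀ k, IsClosed (C k) := by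
    intro k
    have h1 : C k = closedBall 0 1 ∩ ⋂ j ∈ {j | j ≤ k},
        (closedBall 0 1 ∩ (fun a => Q (y j a) (y j a)) ⁻¹' Ici (-1)) := by
      ext a
      simp only [hC, mem_ofPred_eq, mem_inter_iff, mem_closedBall, dist_zero_right, mem_iInter,
        mem_preimage, mem_Ici]
      exact ⟨fun h => ⟨h.1, fun j hj => ⟨h.1, h.2 j hj⟩⟩, fun h => ⟨h.1, fun j hj => (h.2 j hj).2⟩⟩
    rw [h1]
    exact isClosed_closedBall.inter (isClosed_biInter fun j _ =>
      (hqc j).preimage_isClosed_of_isClosed isClosed_closedBall isClosed_Ici)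
  have hWo : ∀ k, IsOpen (W k) := by
    intro k
    have h1 : W k = ball 0 1 ∩ ⋂ j ∈ {j | j ≤ k},
        (ball 0 1 ∩ (fun a => Q (y j a) (y j a)) ⁻¹' Ioi (-1)) := by
      ext a
      simp only [hW, mem_ofPred_eq, mem_inter_iff, mem_ball, dist_zero_right, mem_iInter,
        mem_preimage, mem_Ioi]
      exact ⟨fun h => ⟨h.1, fun j hj => ⟨h.1, h.2 j hj⟩⟩, fun h => ⟨h.1, fun j hj => (h.2 j hj).2⟩⟩
    rw [h1]
    exact isOpen_ball.inter ((finite_le_nat k).isOpen_biInter fun j _ =>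
      ((hqc j).mono ball_subset_closedBall).isOpen_inter_preimage isOpen_ball isOpen_Ioi)
  have hWC : ∀ k, W k ⊆ C k := fun k a ha => ⟨ha.1.le, fun j hj => (ha.2 j hj).le⟩
  have hclC : ∀ k, closure (W k) ⊆ C k := fun k => closure_minimal (hWC k) (hCc k)
  have hCB : ∀ k, C k ⊆ closedBall 0 1 := fun k a ha => by simpa using ha.1
  have hWb : ∀ k, IsBounded (W k) := fun k =>
    isBounded_closedBall.subset ((hWC k).trans (hCB k))
  have hfr : ∀ k, ∀ a ∈ frontier (W k), Q (y k a) (y k a) ≤ -1 := by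
    intro k a ha
    rw [(hWo k).frontier_eq] at ha
    obtain ⟨h1, h2⟩ := hclC k ha.1
    by_cases hn : ‖a‖ < 1
    · have h3 : ∃ j ≤ k, Q (y j a) (y j a) ≤ -1 := by
        by_contra hcon
        push Not at hcon
        exact ha.2 ⟨hn, hcon⟩
      obtain ⟨j, hj, h3⟩ := h3
      exact hB a h1 k h2 j hj h3
    · refine hB a h1 k h2 0 (Nat.zero_le _) ?_
      rw [hy0 a h1, hw.sum_sum]
      have h4 := sq_norm_le_sum a
      have h5 : ‖a‖ = 1 := le_antisymm h1 (not_lt.1 hn)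
      rw [h5] at h4
      linarith
  -- the linear map on the coordinates
  let V : (Fin r → ℝ) →ₗ[ℝ] H := Fintype.linearCombination ℝ w
  have hV : ∀ a, V a = ∑ j, a j • w j := fun a => Fintype.linearCombination_apply _ _ a
  let M : (Fin r → ℝ) →ₗ[ℝ] (Fin r → ℝ) := (piL Q w : H →ₗ[ℝ] (Fin r → ℝ)) ∘ₗ (S : H →ₗ[ℝ] H) ∘ₗ V
  have hM : ∀ a, M a = piL Q w (S (∑ j, a j • w j)) := fun a => by
    simp only [M, LinearMap.comp_apply, hV]; rfl
  have hMi : Function.Injective M := by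
    rw [← LinearMap.ker_eq_bot, LinearMap.ker_eq_bot']
    intro a ha
    by_contra hne
    refine hneg (S (∑ j, a j • w j)) ?_ (by rw [← hM, ha])
    have h1 := hdp (∑ j, a j • w j) (S (∑ j, a j • w j))
    rw [sub_self, norm_zero, hw.sum_sum] at h1
    have h2 := sq_norm_le_sum a
    have h3 : 0 < ‖a‖ := norm_pos_iff.2 hne
    nlinarith [sq_nonneg ‖∑ j, a j • w j‖]
  let E := LinearEquiv.ofInjectiveEndo M hMi
  let N : (Fin r → ℝ) →ₗ[ℝ] (Fin r → ℝ) := E.symm
  have hNM : ∀ a, N (M a) = a := fun a => E.symm_apply_apply a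
  have hNi : ∀ k a, (N ^ k) a = 0 → a = 0 := by
    intro k
    induction k with
    | zero => intro a h; simpa using h
    | succ k ih =>
      intro a h
      rw [pow_succ, Module.End.mul_apply] at h
      have := ih _ h
      exact E.symm.injective (by rw [map_zero]; exact this)
  set f : ℕ → (Fin r → ℝ) → (Fin r → ℝ) := fun k a => (N ^ k) (piL Q w (y k a)) with hf
  have hfc : ∀ k, ContinuousOn (f k) (closedBall 0 1) := fun k =>
    (N ^ k).continuous_of_finiteDimensional.comp_continuousOn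
      ((piL Q w).continuous.comp_continuousOn (hyc k))
  have hfc' : ∀ k j, ContinuousOn (f k) (closure (W j)) := fun k j =>
    (hfc k).mono ((hclC j).trans (hCB j))
  have hhom : ∀ k, ∀ a ∈ frontier (W k), ∀ t ∈ Icc (0 : ℝ) 1,
      (1 - t) • f k a + t • f (k + 1) a ≠ 0 := by
    intro k a ha t ht h0
    obtain ⟨h1, h2⟩ := hclC k (frontier_subset_closure ha)
    have h3 := hyst k a h1 (hA a h1 k h2).1
    set u := ∑ j, piL Q w (y k a) j • w j with hu
    have h4 : (1 - t) • f k a + t • f (k + 1) a =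
        (N ^ (k + 1)) (piL Q w ((1 - t) • S u + t • y (k + 1) a)) := by
      simp only [hf, map_add, map_smul]
      rw [← hM, pow_succ N k, Module.End.mul_apply _ _ (M _), hNM]
    rw [h4] at h0
    refine hneg _ ?_ (hNi _ _ h0)
    have h5 : (1 - t) • S u + t • y (k + 1) a - S (u + t • rem Q w (y k a)) =
        t • (y (k + 1) a - S (y k a)) := by
      have h6 : rem Q w (y k a) = y k a - u := by
        rw [hu, eq_sub_iff_add_eq', sum_add_rem]
      rw [h6]
      simp only [map_add, map_smul, map_sub, smul_sub, sub_smul, one_smul]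
      abel
    have h6 := hdp' (u + t • rem Q w (y k a)) ((1 - t) • S u + t • y (k + 1) a) (by
      rw [h5, norm_smul, Real.norm_eq_abs, abs_of_nonneg ht.1]
      exact (mul_le_of_le_one_left (norm_nonneg _) ht.2).trans h3)
    rw [hu, hw.Q_split hs, ← hu] at h6
    have h7 := hw.Q_eq hs (y k a)
    have h8 := hfr k a ha
    have h9 := hrem (y k a)
    have h10 : t ^ 2 * Q (rem Q w (y k a)) (rem Q w (y k a)) ≤
        Q (rem Q w (y k a)) (rem Q w (y k a)) :=
      mul_le_of_le_one_left h9 (pow_le_one₀ ht.1 ht.2)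
    nlinarith [sq_nonneg ‖u + t • rem Q w (y k a)‖]
  have hdeg : ∀ k, degR (f k) (W k) = 1 := by
    intro k
    induction k with
    | zero =>
      have h0 : (0 : Fin r → ℝ) ∈ W 0 := by
        refine ⟨by simp, fun j hj => ?_⟩
        obtain rfl : j = 0 := by omega
        rw [hy0 0 (by simp)]
        simp
      rw [← degR_id_sub (hWb 0) (hWo 0) h0]
      refine degR_homotopy (hWo 0) (hWb 0) (hfc' 0 0) (by fun_prop) fun a ha t _ => ?_
      obtain ⟨h1, -⟩ := hclC 0 (frontier_subset_closure ha)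
      have h2 : piL Q w (y 0 a) = a := by rw [hy0 a h1, hw.piL_sum]
      have h3 := hneg (y 0 a) (by linarith [hfr 0 a ha])
      rw [h2] at h3
      simp only [hf, pow_zero, Module.End.one_apply, h2, sub_zero]
      rwa [← add_smul, sub_add_cancel, one_smul]
    | succ k ih =>
      rw [← ih, degR_homotopy (hWo k) (hWb k) (hfc' k k) (hfc' (k + 1) k) (hhom k)]
      have hUW : W (k + 1) ⊆ W k := fun a ha => ⟨ha.1, fun j hj => ha.2 j (by omega)⟩
      have h : ∀ a ∈ closure (W k), f (k + 1) a = 0 → a ∈ W (k + 1) := by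
        intro a ha h0
        have h1 : a ∈ W k := by
          by_contra hn
          refine hhom k a (by rw [(hWo k).frontier_eq]; exact ⟨ha, hn⟩) 1 ⟨zero_le_one, le_rfl⟩ ?_
          simp [h0]
        refine ⟨h1.1, fun j hj => ?_⟩
        rcases Nat.lt_or_ge j (k + 1) with hj' | hj'
        · exact h1.2 j (by omega)
        · obtain rfl : j = k + 1 := by omega
          by_contra hn
          exact hneg (y (k + 1) a) (by linarith) (hNi _ _ h0)
      have := degR_sum (hWb k) (hWo k) (hfc' (k + 1) k) ({()} : Finset Unit)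
        (U := fun _ => W (k + 1)) (fun _ _ => hWo (k + 1)) (fun _ _ => hUW) (by simp)
        (fun x hx h0 => ⟨(), by simp, h x hx h0⟩)
      simpa using this.symm
  have hne : ∀ k, (C k).Nonempty := by
    intro k
    refine Nonempty.mono (hWC k) ?_
    by_contra hn
    rw [not_nonempty_iff_eq_empty] at hn
    have := degR_empty_zero (hWb k) (hWo k) (hfc' k k) (by rw [hn]; simp)
    rw [hdeg] at this
    exact one_ne_zero this
  obtain ⟨a, ha⟩ := IsCompact.nonempty_iInter_of_sequence_nonempty_isCompact_isClosed C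
    (fun k a ha => ⟨ha.1, fun j hj => ha.2 j (by omega)⟩) hne
    ((isCompact_closedBall 0 1).of_isClosed_subset (hCc 0) (hCB 0)) hCc
  rw [mem_iInter] at ha
  exact ⟨a, (ha 0).1, fun k => (hA a (ha k).1 k (ha k).2).1 k le_rfl⟩

end Vale.Agent.P264Z.A
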