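import Mathlib.Analysis.InnerProductSpace.Adjoint
import Mathlib.Analysis.Complex.LocallyUniformLimit
import Mathlib.Analysis.Complex.CauchyIntegral
import Mathlib.Analysis.Analytic.Order
import Mathlib.Analysis.SpecialFunctions.Integrals.Basic
import Mathlib.LinearAlgebra.Matrix.NonsingularInverse

/-!
# P264, block A: the frequency condition on a circle
-/

open scoped RealInnerProductSpace
open Finset Filter Topology

namespace Vale.Agent.P264Z.A

theorem integral_cos_int (m : ℤ) (hm : m ≠ 0) :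
    ∫ φ in (0 : ℝ)..2 * Real.pi, Real.cos (m * φ) = 0 := by
  have hm' : (m : ℝ) ≠ 0 := by exact_mod_cast hm
  rw [intervalIntegral.integral_comp_mul_left (fun x => Real.cos x) hm', integral_cos]
  have : Real.sin (m * (2 * Real.pi)) = 0 := by
    have := Real.sin_int_mul_pi (m * 2)
    push_cast at this
    rw [← this]; congr 1; ring
  rw [this]; simp

/-- Parseval identity for finite sums in a real inner product space -/
theorem parseval {F : Type*} [NormedAddCommGroup F] [InnerProductSpace ℝ F] (u : ℕ → F) (n : ℕ) :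
    ∫ φ in (0 : ℝ)..2 * Real.pi, (‖∑ k ∈ range n, Real.cos (k * φ) • u k‖ ^ 2 +
      ‖∑ k ∈ range n, Real.sin (k * φ) • u k‖ ^ 2) = 2 * Real.pi * ∑ k ∈ range n, ‖u k‖ ^ 2 := by
  have h1 : ∀ φ : ℝ, ‖∑ k ∈ range n, Real.cos (k * φ) • u k‖ ^ 2 +
      ‖∑ k ∈ range n, Real.sin (k * φ) • u k‖ ^ 2 =
      ∑ j ∈ range n, ∑ k ∈ range n, ⟪u j, u k⟫ * Real.cos ((((j : ℤ) - k : ℤ) : ℝ) * φ) := by
    intro φ
    rw [← real_inner_self_eq_norm_sq, ← real_inner_self_eq_norm_sq, sum_inner, sum_inner,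
      ← Finset.sum_add_distrib]
    refine Finset.sum_congr rfl fun j _ => ?_
    rw [inner_sum, inner_sum, ← Finset.sum_add_distrib]
    refine Finset.sum_congr rfl fun k _ => ?_
    rw [real_inner_smul_left, real_inner_smul_left, real_inner_smul_right, real_inner_smul_right]
    push_cast
    rw [sub_mul, Real.cos_sub]
    ring
  simp only [h1]
  rw [intervalIntegral.integral_finsetSum (fun j _ => Continuous.intervalIntegrable
    (by fun_prop) _ _), Finset.mul_sum]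
  refine Finset.sum_congr rfl fun j hj => ?_
  rw [intervalIntegral.integral_finsetSum (fun k _ => Continuous.intervalIntegrable
    (by fun_prop) _ _), Finset.sum_eq_single j]
  · simp [mul_comm]
  · intro k _ hk
    rw [intervalIntegral.integral_const_mul, integral_cos_int _ (by omega), mul_zero]
  · intro h; exact absurd hj h

/-- a circle on which `1 - m(ζ)` is uniformly invertible -/
theorem exists_circle {N : ℕ} (c : ℕ → Fin N → Fin N → ℝ) {θ M : ℝ} (hθ0 : 0 < θ) (hθ1 : θ < 1)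
    (hc : ∀ k i j, |c k i j| ≤ M * θ ^ k) :
    ∃ ρ K : ℝ, 1 < ρ ∧ ρ * θ < 1 ∧ 0 < K ∧ ∀ ζ : ℂ, ‖ζ‖ = ρ → ∀ s : Fin N → ℂ,
      ‖s‖ ≤ K * ‖fun i => s i - ∑ j, (∑' k, (c k i j : ℂ) * ζ ^ (k + 1)) * s j‖ := by
  classical
  have hinv : 1 < θ⁻¹ := (one_lt_inv₀ hθ0).2 hθ1
  obtain ⟨ρ0, h01, h02⟩ := exists_between hinv
  obtain ⟨ρ1, h11, h12⟩ := exists_between h01
  have hρθ : ρ0 * θ < 1 := by
    have := mul_lt_mul_of_pos_right h02 hθ0
    rwa [inv_mul_cancel₀ hθ0.ne'] at this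
  set m : Fin N → Fin N → ℂ → ℂ := fun i j ζ => ∑' k, (c k i j : ℂ) * ζ ^ (k + 1) with hm
  have hmd : ∀ i j, DifferentiableOn ℂ (m i j) (Metric.ball 0 ρ0) := by
    intro i j
    refine Complex.differentiableOn_tsum_of_summable_norm
      (u := fun k => M * ρ0 * (ρ0 * θ) ^ k)
      ((summable_geometric_of_lt_one (by positivity) hρθ).mul_left _)
      (fun k => by fun_prop) Metric.isOpen_ball fun k w hw => ?_
    have hw' : ‖w‖ ≤ ρ0 := by simpa using (mem_ball_zero_iff.1 hw).le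
    rw [norm_mul, Complex.norm_real, Real.norm_eq_abs, norm_pow]
    calc |c k i j| * ‖w‖ ^ (k + 1) ≤ (M * θ ^ k) * ρ0 ^ (k + 1) :=
          mul_le_mul (hc k i j) (pow_le_pow_left₀ (norm_nonneg _) hw' _) (by positivity)
            ((abs_nonneg _).trans (hc k i j))
      _ = M * ρ0 * (ρ0 * θ) ^ k := by rw [mul_pow]; ring
  set Mx : ℂ → Matrix (Fin N) (Fin N) ℂ := fun ζ => 1 - Matrix.of fun i j => m i j ζ with hMx
  have hMe : ∀ ζ i j, Mx ζ i j = (1 : Matrix (Fin N) (Fin N) ℂ) i j - m i j ζ := fun ζ i j => rfl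
  have hdd : DifferentiableOn ℂ (fun ζ => (Mx ζ).det) (Metric.ball 0 ρ0) := by
    simp only [Matrix.det_apply, hMe]
    refine DifferentiableOn.fun_sum fun σ _ => DifferentiableOn.fun_const_smul ?_ _
    exact DifferentiableOn.fun_finsetProd fun i _ => (differentiableOn_const _).sub (hmd _ _)
  have han : AnalyticOnNhd ℂ (fun ζ => (Mx ζ).det) (Metric.closedBall 0 ρ1) :=
    (hdd.analyticOnNhd Metric.isOpen_ball).mono (Metric.closedBall_subset_ball h12)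
  have hd0 : (Mx 0).det ≠ 0 := by
    have : Mx 0 = 1 := by
      ext i j
      rw [hMe]
      simp [hm]
    rw [this, Matrix.det_one]; exact one_ne_zero
  have hcod := han.preimage_zero_mem_codiscreteWithin (x := 0) hd0
    (Metric.mem_closedBall_self (by linarith))
    ((convex_closedBall (0 : ℂ) ρ1).isConnected ⟨0, Metric.mem_closedBall_self (by linarith)⟩)
  have hfin := (isCompact_closedBall (0 : ℂ) ρ1).finite_sdiff_of_mem_codiscreteWithin hcod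
  obtain ⟨ρ, hρ, hρn⟩ := (Set.Ioo_infinite h11).exists_notMem_finite (hfin.image fun z => ‖z‖)
  have hρ0 : ρ < ρ0 := hρ.2.trans h12
  have hdet : ∀ ζ : ℂ, ‖ζ‖ = ρ → (Mx ζ).det ≠ 0 := by
    intro ζ hζ h0
    apply hρn
    refine ⟨ζ, ⟨?_, ?_⟩, hζ⟩
    · rw [mem_closedBall_zero_iff, hζ]; exact hρ.2.le
    · simp [h0]
  have hmv : ∀ ζ (s : Fin N → ℂ), (Mx ζ).mulVec s = fun i => s i - ∑ j, m i j ζ * s j := by
    intro ζ s
    rw [hMx]
    simp only [Matrix.sub_mulVec, Matrix.one_mulVec]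
    rfl
  have hcont : ContinuousOn (fun p : ℂ × (Fin N → ℂ) => ‖(Mx p.1).mulVec p.2‖)
      (Metric.sphere (0 : ℂ) ρ ×ˢ Metric.sphere (0 : Fin N → ℂ) 1) := by
    simp only [hmv]
    refine ContinuousOn.norm (continuousOn_pi.2 fun i => ContinuousOn.sub (by fun_prop) ?_)
    refine continuousOn_finsetSum _ fun j _ => ContinuousOn.mul ?_ (by fun_prop)
    refine (hmd i j).continuousOn.comp continuousOn_fst fun p hp => ?_
    have : ‖p.1‖ = ρ := by simpa using hp.1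
    rw [mem_ball_zero_iff, this]; exact hρ0
  obtain ⟨a, ha0, ha⟩ := ((isCompact_sphere (0 : ℂ) ρ).prod
    (isCompact_sphere (0 : Fin N → ℂ) 1)).exists_forall_le' hcont (a := 0) (fun p hp => by
      have h1 : ‖p.1‖ = ρ := by simpa using hp.1
      have h2 : ‖p.2‖ = 1 := by simpa using hp.2
      rw [norm_pos_iff]
      intro h
      have h3 := Matrix.eq_zero_of_mulVec_eq_zero (hdet _ h1) h
      rw [h3, norm_zero] at h2
      exact zero_ne_one h2)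
  refine ⟨ρ, a⁻¹, hρ.1, (mul_lt_mul_of_pos_right hρ0 hθ0).trans hρθ, inv_pos.2 ha0,
    fun ζ hζ s => ?_⟩
  change ‖s‖ ≤ a⁻¹ * ‖fun i => s i - ∑ j, m i j ζ * s j‖
  rw [← hmv]
  by_cases hs : s = 0
  · rw [hs, norm_zero]; positivity
  have hs0 : 0 < ‖s‖ := norm_pos_iff.2 hs
  have h1 := ha (ζ, ((‖s‖⁻¹ : ℝ) : ℂ) • s) ⟨by simpa using hζ, by
    rw [mem_sphere_zero_iff_norm, norm_smul, Complex.norm_real, Real.norm_eq_abs,
      abs_of_pos (inv_pos.2 hs0), inv_mul_cancel₀ hs0.ne']⟩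
  simp only at h1
  rw [Matrix.mulVec_smul, norm_smul, Complex.norm_real, Real.norm_eq_abs,
    abs_of_pos (inv_pos.2 hs0)] at h1
  rw [← div_eq_inv_mul, le_div_iff₀ ha0]
  rw [← div_eq_inv_mul, le_div_iff₀ hs0] at h1
  linarith

/-- solving a renewal recursion -/
theorem renewal {Y d e : ℕ → ℂ} {ζ D : ℂ} {θ B E : ℝ} (hθ : 0 ≤ θ) (hζ : ‖ζ‖ * θ < 1)
    (hrec : ∀ k, Y k = ζ * (Y (k + 1) + d k) + e k) (hY : ∀ k, ‖Y k‖ ≤ B * θ ^ k)
    (he : ∀ k, ‖e k‖ ≤ E * θ ^ k) (hD : HasSum (fun k => ζ ^ (k + 1) * d k) D) :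
    ‖Y 0 - D‖ ≤ E / (1 - ‖ζ‖ * θ) := by
  have hE : 0 ≤ E := by simpa using (norm_nonneg _).trans (he 0)
  have hq : 0 ≤ ‖ζ‖ * θ := by positivity
  have h1 : ∀ p, Y 0 - ∑ k ∈ range p, ζ ^ (k + 1) * d k =
      ∑ k ∈ range p, ζ ^ k * e k + ζ ^ p * Y p := by
    intro p
    induction p with
    | zero => simp
    | succ p ih =>
      rw [Finset.sum_range_succ, Finset.sum_range_succ, ← sub_sub, ih, hrec p]
      ring
  have h2 : ∀ p, ‖Y 0 - ∑ k ∈ range p, ζ ^ (k + 1) * d k‖ ≤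
      E / (1 - ‖ζ‖ * θ) + B * (‖ζ‖ * θ) ^ p := by
    intro p
    rw [h1]
    refine (norm_add_le _ _).trans (add_le_add ?_ ?_)
    · refine (norm_sum_le _ _).trans ?_
      calc ∑ k ∈ range p, ‖ζ ^ k * e k‖ ≤ ∑ k ∈ range p, E * (‖ζ‖ * θ) ^ k := by
            refine Finset.sum_le_sum fun k _ => ?_
            rw [norm_mul, norm_pow, mul_pow]
            calc ‖ζ‖ ^ k * ‖e k‖ ≤ ‖ζ‖ ^ k * (E * θ ^ k) := by gcongr; exact he k
              _ = _ := by ring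
        _ ≤ ∑' k, E * (‖ζ‖ * θ) ^ k :=
            ((summable_geometric_of_lt_one hq hζ).mul_left E).sum_le_tsum _
              fun k _ => by positivity
        _ = E / (1 - ‖ζ‖ * θ) := by
            rw [tsum_mul_left, tsum_geometric_of_lt_one hq hζ, div_eq_mul_inv]
    · rw [norm_mul, norm_pow, mul_pow]
      calc ‖ζ‖ ^ p * ‖Y p‖ ≤ ‖ζ‖ ^ p * (B * θ ^ p) := by gcongr; exact hY p
        _ = _ := by ring
  have t1 : Tendsto (fun p => ‖Y 0 - ∑ k ∈ range p, ζ ^ (k + 1) * d k‖) atTop (𝓝 ‖Y 0 - D‖) :=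
    (tendsto_const_nhds.sub hD.tendsto_sum_nat).norm
  have t2 : Tendsto (fun p : ℕ => E / (1 - ‖ζ‖ * θ) + B * (‖ζ‖ * θ) ^ p) atTop
      (𝓝 (E / (1 - ‖ζ‖ * θ) + B * 0)) :=
    tendsto_const_nhds.add ((tendsto_pow_atTop_nhds_zero_of_lt_one hq hζ).const_mul B)
  rw [mul_zero, add_zero] at t2
  exact le_of_tendsto_of_tendsto' t1 t2 h2

variable {H : Type*} [NormedAddCommGroup H] [InnerProductSpace ℝ H]

/-- scalar Fourier sum -/
noncomputable def Fs (φ : ℝ) (n : ℕ) (y : ℕ → H) (g : H) : ℂ :=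
  ∑ k ∈ range n, ((⟪g, y k⟫ : ℝ) : ℂ) * Complex.exp (φ * Complex.I) ^ k

theorem Fs_eq (φ : ℝ) (n : ℕ) (y : ℕ → H) (g : H) :
    Fs φ n y g = ((⟪g, ∑ k ∈ range n, Real.cos (k * φ) • y k⟫ : ℝ) : ℂ) +
      ((⟪g, ∑ k ∈ range n, Real.sin (k * φ) • y k⟫ : ℝ) : ℂ) * Complex.I := by
  rw [Fs, inner_sum, inner_sum]
  push_cast
  rw [Finset.sum_mul, ← Finset.sum_add_distrib]
  refine Finset.sum_congr rfl fun k _ => ?_
  rw [← Complex.exp_nat_mul, ← mul_assoc, Complex.exp_mul_I, real_inner_smul_right,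
    real_inner_smul_right]
  push_cast
  ring

theorem norm_Fs_sq (φ : ℝ) (n : ℕ) (y : ℕ → H) (g : H) :
    ‖Fs φ n y g‖ ^ 2 = ⟪g, ∑ k ∈ range n, Real.cos (k * φ) • y k⟫ ^ 2 +
      ⟪g, ∑ k ∈ range n, Real.sin (k * φ) • y k⟫ ^ 2 := by
  rw [Fs_eq, Complex.sq_norm, Complex.normSq_add_mul_I]

theorem norm_Fs_le (φ : ℝ) (n : ℕ) (y : ℕ → H) (g : H) :
    ‖Fs φ n y g‖ ≤ ‖g‖ * Real.sqrt (‖∑ k ∈ range n, Real.cos (k * φ) • y k‖ ^ 2 +
      ‖∑ k ∈ range n, Real.sin (k * φ) • y k‖ ^ 2) := by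
  refine (le_abs_self _).trans (abs_le_of_sq_le_sq ?_ (by positivity))
  rw [norm_Fs_sq, mul_pow, Real.sq_sqrt (by positivity), mul_add]
  refine add_le_add ?_ ?_ <;>
  · rw [← mul_pow, ← sq_abs]
    exact pow_le_pow_left₀ (abs_nonneg _) (abs_real_inner_le_norm _ _) 2

variable [CompleteSpace H]

/-- **Frequency condition.** -/
theorem exists_freq (A : H →L[ℝ] H) {N : ℕ} (ℓ gv : Fin N → H) {θ : ℝ} (hθ0 : 0 < θ)
    (hθ1 : θ < 1) (hA : ‖A‖ ≤ θ) :
    ∃ ρ γ : ℝ, 1 < ρ ∧ ρ * θ < 1 ∧ 0 ≤ γ ∧ ∀ (n : ℕ) (y : ℕ → H), y 0 = 0 → y n = 0 →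
      ∑ k ∈ range n, ‖y k‖ ^ 2 ≤
        γ * ∑ k ∈ range n, ‖y (k + 1) - ρ • (A (y k) + ∑ i, ⟪ℓ i, y k⟫ • gv i)‖ ^ 2 := by
  set B := ContinuousLinearMap.adjoint A with hB
  have hBn : ‖B‖ ≤ θ := by rw [hB, LinearIsometryEquiv.norm_map]; exact hA
  set gk : ℕ → Fin N → H := fun k i => (B ^ k) (ℓ i) with hgk
  have hgk0 : ∀ i, gk 0 i = ℓ i := fun i => by simp [hgk]
  have hgks : ∀ k i, gk (k + 1) i = B (gk k i) := fun k i => by
    simp only [hgk, pow_succ', mul_apply_eq_comp]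
  set L : ℝ := ∑ i, ‖ℓ i‖ with hL
  set G : ℝ := ∑ i, ‖gv i‖ with hG
  have hL0 : 0 ≤ L := Finset.sum_nonneg fun _ _ => norm_nonneg _
  have hG0 : 0 ≤ G := Finset.sum_nonneg fun _ _ => norm_nonneg _
  have hLi : ∀ i, ‖ℓ i‖ ≤ L := fun i =>
    Finset.single_le_sum (f := fun i => ‖ℓ i‖) (fun _ _ => norm_nonneg _) (mem_univ i)
  have hGi : ∀ i, ‖gv i‖ ≤ G := fun i =>
    Finset.single_le_sum (f := fun i => ‖gv i‖) (fun _ _ => norm_nonneg _) (mem_univ i)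
  have hgkn : ∀ k i, ‖gk k i‖ ≤ L * θ ^ k := by
    intro k i
    induction k with
    | zero => rw [hgk0]; simpa using hLi i
    | succ k ih =>
      rw [hgks]
      calc ‖B (gk k i)‖ ≤ ‖B‖ * ‖gk k i‖ := B.le_opNorm _
        _ ≤ θ * (L * θ ^ k) := mul_le_mul hBn ih (norm_nonneg _) hθ0.le
        _ = L * θ ^ (k + 1) := by ring
  have hc : ∀ k i j, |⟪gk k i, gv j⟫| ≤ L * G * θ ^ k := by
    intro k i j
    calc |⟪gk k i, gv j⟫| ≤ ‖gk k i‖ * ‖gv j‖ := abs_real_inner_le_norm _ _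
      _ ≤ (L * θ ^ k) * G := mul_le_mul (hgkn k i) (hGi j) (norm_nonneg _) (by positivity)
      _ = _ := by ring
  obtain ⟨ρ, K, hρ1, hρθ, hK, hcirc⟩ := exists_circle (fun k i j => ⟪gk k i, gv j⟫) hθ0 hθ1 hc
  have hρ0 : 0 < ρ := by linarith
  set κ : ℝ := ρ * θ with hκ
  have hκ0 : 0 < κ := by positivity
  have hκ1 : 0 < 1 - κ := by linarith
  set K1 : ℝ := N * (K * (L / (1 - κ))) ^ 2 with hK1
  have hK10 : 0 ≤ K1 := by positivity
  refine ⟨ρ, (2 * (ρ * G) ^ 2 * K1 + 2) / (1 - κ) ^ 2, hρ1, hρθ, by positivity,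
    fun n y hy0 hyn => ?_⟩
  set u : ℕ → H := fun k => y (k + 1) - ρ • (A (y k) + ∑ i, ⟪ℓ i, y k⟫ • gv i) with hu
  have hyu : ∀ k, y (k + 1) = ρ • (A (y k) + ∑ i, ⟪ℓ i, y k⟫ • gv i) + u k := fun k => by
    rw [hu]; simp
  -- pointwise inequality on the circle
  have hpt : ∀ φ : ℝ, ∑ i, ‖Fs φ n y (ℓ i)‖ ^ 2 ≤
      K1 * (‖∑ k ∈ range n, Real.cos (k * φ) • u k‖ ^ 2 +
        ‖∑ k ∈ range n, Real.sin (k * φ) • u k‖ ^ 2) := by
    intro φ
    set ω : ℂ := Complex.exp (φ * Complex.I) with hω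
    have hω1 : ‖ω‖ = 1 := Complex.norm_exp_ofReal_mul_I φ
    set ζ : ℂ := ρ * ω with hζ
    have hζn : ‖ζ‖ = ρ := by
      rw [hζ, norm_mul, hω1, mul_one, Complex.norm_real, Real.norm_eq_abs, abs_of_pos hρ0]
    set U2 := ‖∑ k ∈ range n, Real.cos (k * φ) • u k‖ ^ 2 +
        ‖∑ k ∈ range n, Real.sin (k * φ) • u k‖ ^ 2 with hU2
    have hU20 : 0 ≤ U2 := by positivity
    have hrec : ∀ g : H, Fs φ n y g =
        ζ * (Fs φ n y (B g) + ∑ j, ((⟪g, gv j⟫ : ℝ) : ℂ) * Fs φ n y (ℓ j)) + ω * Fs φ n u g := by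
      intro g
      have h1 : Fs φ n y g = ∑ k ∈ range n, ((⟪g, y (k + 1)⟫ : ℝ) : ℂ) * ω ^ (k + 1) := by
        have h2 := Finset.sum_range_succ' (fun k => ((⟪g, y k⟫ : ℝ) : ℂ) * ω ^ k) n
        rw [Finset.sum_range_succ, hy0, hyn] at h2
        simpa [Fs] using h2
      rw [h1]
      simp only [Fs, ← hω]
      rw [Finset.sum_congr rfl fun j _ => Finset.mul_sum _ _ _, Finset.sum_comm,
        ← Finset.sum_add_distrib, Finset.mul_sum, Finset.mul_sum, ← Finset.sum_add_distrib]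
      refine Finset.sum_congr rfl fun k _ => ?_
      rw [hyu k, inner_add_right, real_inner_smul_right, inner_add_right, inner_sum, hB,
        ContinuousLinearMap.adjoint_inner_left]
      simp only [real_inner_smul_right]
      push_cast
      rw [hζ, mul_add, mul_add, add_mul, add_mul, Finset.mul_sum, Finset.mul_sum, Finset.sum_mul]
      congr 1
      · congr 1
        · ring
        · exact Finset.sum_congr rfl fun j _ => by ring
      · ring
    have hSi : ∀ i, ‖Fs φ n y (ℓ i) -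
        ∑ j, (∑' k, ((⟪gk k i, gv j⟫ : ℝ) : ℂ) * ζ ^ (k + 1)) * Fs φ n y (ℓ j)‖ ≤
          L / (1 - κ) * Real.sqrt U2 := by
      intro i
      have hsum : ∀ j, Summable fun k => ((⟪gk k i, gv j⟫ : ℝ) : ℂ) * ζ ^ (k + 1) := by
        intro j
        refine Summable.of_norm_bounded (g := fun k => L * G * ρ * κ ^ k)
          ((summable_geometric_of_lt_one hκ0.le hρθ).mul_left _) fun k => ?_
        rw [norm_mul, Complex.norm_real, Real.norm_eq_abs, norm_pow, hζn]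
        calc |⟪gk k i, gv j⟫| * ρ ^ (k + 1) ≤ L * G * θ ^ k * ρ ^ (k + 1) := by
              gcongr; exact hc k i j
          _ = _ := by rw [hκ, mul_pow]; ring
      have hD : HasSum (fun k => ζ ^ (k + 1) * ∑ j, ((⟪gk k i, gv j⟫ : ℝ) : ℂ) * Fs φ n y (ℓ j))
          (∑ j, (∑' k, ((⟪gk k i, gv j⟫ : ℝ) : ℂ) * ζ ^ (k + 1)) * Fs φ n y (ℓ j)) := by
        have := hasSum_sum (s := univ) fun j _ => (hsum j).hasSum.mul_right (Fs φ n y (ℓ j))
        have e : (fun k => ζ ^ (k + 1) * ∑ j, ((⟪gk k i, gv j⟫ : ℝ) : ℂ) * Fs φ n y (ℓ j)) =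
            fun k => ∑ j, ((⟪gk k i, gv j⟫ : ℝ) : ℂ) * ζ ^ (k + 1) * Fs φ n y (ℓ j) := by
          funext k
          rw [Finset.mul_sum]
          exact Finset.sum_congr rfl fun j _ => by ring
        rw [e]
        exact this
      have key := renewal (Y := fun k => Fs φ n y (gk k i)) (e := fun k => ω * Fs φ n u (gk k i))
        (B := L * Real.sqrt (‖∑ k ∈ range n, Real.cos (k * φ) • y k‖ ^ 2 +
          ‖∑ k ∈ range n, Real.sin (k * φ) • y k‖ ^ 2)) (E := L * Real.sqrt U2) hθ0.le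
        (by rw [hζn]; exact hρθ) (fun k => by rw [hgks]; exact hrec _) (fun k => by
          refine (norm_Fs_le φ n y _).trans ?_
          rw [mul_right_comm]
          gcongr
          exact hgkn k i) (fun k => by
          rw [norm_mul, hω1, one_mul]
          refine (norm_Fs_le φ n u _).trans ?_
          rw [mul_right_comm]
          gcongr
          exact hgkn k i) hD
      rw [hgk0, hζn] at key
      refine key.trans (le_of_eq ?_)
      rw [hκ]; ring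
    have h1 := hcirc ζ hζn fun i => Fs φ n y (ℓ i)
    have h2 : ‖fun i => Fs φ n y (ℓ i)‖ ≤ K * (L / (1 - κ) * Real.sqrt U2) := by
      refine h1.trans (mul_le_mul_of_nonneg_left ?_ hK.le)
      exact (pi_norm_le_iff_of_nonneg (by positivity)).2 hSi
    calc ∑ i, ‖Fs φ n y (ℓ i)‖ ^ 2 ≤ ∑ _i : Fin N, (K * (L / (1 - κ) * Real.sqrt U2)) ^ 2 := by
          refine Finset.sum_le_sum fun i _ => pow_le_pow_left₀ (norm_nonneg _) ?_ 2
          exact (norm_le_pi_norm (fun i => Fs φ n y (ℓ i)) i).trans h2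
      _ = K1 * U2 := by
          rw [Finset.sum_const, card_univ, Fintype.card_fin, nsmul_eq_mul, hK1, ← mul_assoc K,
            mul_pow _ (Real.sqrt U2), Real.sq_sqrt hU20, mul_assoc]
  -- integrate
  have hint : ∑ k ∈ range n, ∑ i, ⟪ℓ i, y k⟫ ^ 2 ≤ K1 * ∑ k ∈ range n, ‖u k‖ ^ 2 := by
    have h1 : ∀ i, ∫ φ in (0 : ℝ)..2 * Real.pi, ‖Fs φ n y (ℓ i)‖ ^ 2 =
        2 * Real.pi * ∑ k ∈ range n, ⟪ℓ i, y k⟫ ^ 2 := by
      intro i
      have h2 := parseval (F := ℝ) (fun k => ⟪ℓ i, y k⟫) n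
      simp only [Real.norm_eq_abs, sq_abs, smul_eq_mul] at h2
      rw [← h2]
      refine intervalIntegral.integral_congr fun φ _ => ?_
      simp only [norm_Fs_sq, inner_sum, real_inner_smul_right]
    have hcF : ∀ i, Continuous fun φ : ℝ => ‖Fs φ n y (ℓ i)‖ ^ 2 := by
      intro i
      unfold Fs
      fun_prop
    have h3 := intervalIntegral.integral_mono_on (μ := MeasureTheory.volume) (a := 0)
      (b := 2 * Real.pi) (by positivity)
      (Continuous.intervalIntegrable (continuous_finsetSum _ fun i _ => hcF i) _ _)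
      (Continuous.intervalIntegrable (by fun_prop) _ _) fun φ _ => hpt φ
    rw [intervalIntegral.integral_finsetSum (fun i _ => (hcF i).intervalIntegrable _ _),
      intervalIntegral.integral_const_mul, parseval] at h3
    simp only [h1] at h3
    rw [← Finset.mul_sum, Finset.sum_comm] at h3
    have hpi : 0 < 2 * Real.pi := by positivity
    apply le_of_mul_le_mul_left _ hpi
    linarith
  -- time domain
  have hstep : ∀ k, ‖y (k + 1)‖ ^ 2 ≤ κ * ‖y k‖ ^ 2 +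
      (2 * (ρ * G) ^ 2 * ∑ i, ⟪ℓ i, y k⟫ ^ 2 + 2 * ‖u k‖ ^ 2) / (1 - κ) := by
    intro k
    set s : ℝ := Real.sqrt (∑ i, ⟪ℓ i, y k⟫ ^ 2) with hs
    have hs2 : s ^ 2 = ∑ i, ⟪ℓ i, y k⟫ ^ 2 :=
      Real.sq_sqrt (Finset.sum_nonneg fun _ _ => sq_nonneg _)
    have h1 : ‖∑ i, ⟪ℓ i, y k⟫ • gv i‖ ≤ G * s := by
      refine (norm_sum_le _ _).trans ?_
      rw [hG, Finset.sum_mul]
      refine Finset.sum_le_sum fun i _ => ?_
      rw [norm_smul, mul_comm, Real.norm_eq_abs]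
      gcongr
      refine Real.abs_le_sqrt ?_
      exact Finset.single_le_sum (f := fun i => ⟪ℓ i, y k⟫ ^ 2) (fun _ _ => sq_nonneg _)
        (mem_univ i)
    have h2 : ‖y (k + 1)‖ ≤ κ * ‖y k‖ + (ρ * G * s + ‖u k‖) := by
      rw [hyu k]
      refine (norm_add_le _ _).trans ?_
      rw [norm_smul, Real.norm_eq_abs, abs_of_pos hρ0]
      have h3 : ‖A (y k)‖ ≤ θ * ‖y k‖ := (A.le_opNorm _).trans (by gcongr)
      have h4 := norm_add_le (A (y k)) (∑ i, ⟪ℓ i, y k⟫ • gv i)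
      have h5 : ρ * ‖A (y k) + ∑ i, ⟪ℓ i, y k⟫ • gv i‖ ≤ ρ * (θ * ‖y k‖ + G * s) := by
        gcongr; linarith
      rw [hκ]; linarith
    set f := ρ * G * s + ‖u k‖ with hf
    have hf0 : 0 ≤ f := by positivity
    have h6 : f ^ 2 ≤ 2 * (ρ * G) ^ 2 * ∑ i, ⟪ℓ i, y k⟫ ^ 2 + 2 * ‖u k‖ ^ 2 := by
      rw [← hs2, hf]
      nlinarith [sq_nonneg (ρ * G * s - ‖u k‖)]
    have h7 : (κ * ‖y k‖ + f) ^ 2 ≤ κ * ‖y k‖ ^ 2 + f ^ 2 / (1 - κ) := by
      have e : κ * ‖y k‖ ^ 2 + f ^ 2 / (1 - κ) - (κ * ‖y k‖ + f) ^ 2 =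
          κ * ((1 - κ) * ‖y k‖ - f) ^ 2 / (1 - κ) := by
        field_simp
        ring
      have : 0 ≤ κ * ((1 - κ) * ‖y k‖ - f) ^ 2 / (1 - κ) := by positivity
      linarith
    calc ‖y (k + 1)‖ ^ 2 ≤ (κ * ‖y k‖ + f) ^ 2 := pow_le_pow_left₀ (norm_nonneg _) h2 2
      _ ≤ κ * ‖y k‖ ^ 2 + f ^ 2 / (1 - κ) := h7
      _ ≤ _ := by gcongr
  have hshift : ∑ k ∈ range n, ‖y (k + 1)‖ ^ 2 = ∑ k ∈ range n, ‖y k‖ ^ 2 := by
    have h2 := Finset.sum_range_succ' (fun k => ‖y k‖ ^ 2) n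
    rw [Finset.sum_range_succ, hy0, hyn] at h2
    simpa using h2.symm
  have h8 := Finset.sum_le_sum (s := range n) fun k _ => hstep k
  rw [hshift, Finset.sum_add_distrib, ← Finset.mul_sum, ← Finset.sum_div, Finset.sum_add_distrib,
    ← Finset.mul_sum, ← Finset.mul_sum] at h8
  set Y2 := ∑ k ∈ range n, ‖y k‖ ^ 2
  set U2 := ∑ k ∈ range n, ‖u k‖ ^ 2
  have h9 : (1 - κ) * Y2 ≤ (2 * (ρ * G) ^ 2 * K1 + 2) * U2 / (1 - κ) := by
    have h10 : 2 * (ρ * G) ^ 2 * ∑ k ∈ range n, ∑ i, ⟪ℓ i, y k⟫ ^ 2 + 2 * U2 ≤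
        (2 * (ρ * G) ^ 2 * K1 + 2) * U2 := by
      have := mul_le_mul_of_nonneg_left hint (show 0 ≤ 2 * (ρ * G) ^ 2 by positivity)
      linarith
    have h11 := div_le_div_of_nonneg_right h10 hκ1.le
    linarith
  rw [le_div_iff₀ hκ1] at h9
  rw [div_mul_eq_mul_div, le_div_iff₀ (by positivity)]
  linarith

end Vale.Agent.P264Z.A
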