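import Mathlib.Analysis.InnerProductSpace.Completion
import Mathlib.Analysis.InnerProductSpace.Adjoint
import Mathlib.Analysis.InnerProductSpace.Dual
import Mathlib.Analysis.Normed.Operator.Extend

/-!
# P264, block A: Hilbert completion and the step operator
-/

open scoped RealInnerProductSpace

namespace Vale.Agent.P264Z.A

/-- Hilbert completion of a positive semidefinite symmetric form -/
theorem exists_hilbert (X : Type) [AddCommGroup X] [Module ℝ X] (b : X →ₗ[ℝ] X →ₗ[ℝ] ℝ)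
    (hs : ∀ x y, b x y = b y x) (hp : ∀ x, 0 ≤ b x x) :
    ∃ (H : Type) (_ : NormedAddCommGroup H) (_ : InnerProductSpace ℝ H) (_ : CompleteSpace H)
      (ι : X →ₗ[ℝ] H), DenseRange ι ∧ ∀ x y, ⟪ι x, ι y⟫ = b x y := by
  let cd : PreInnerProductSpace.Core ℝ X :=
    { inner := fun x y => b x y
      conj_inner_symm := fun x y => by simpa using hs y x
      re_inner_nonneg := fun x => by simpa using hp x
      add_left := fun x y z => by simp
      smul_left := fun x y r => by simp }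
  let _ : SeminormedAddCommGroup X := InnerProductSpace.Core.toSeminormedAddCommGroup (𝕜 := ℝ)
  let _ : InnerProductSpace ℝ X := InnerProductSpace.ofCore cd
  refine ⟨UniformSpace.Completion X, inferInstance, inferInstance, inferInstance,
    (UniformSpace.Completion.toComplL (𝕜 := ℝ) (E := X)).toLinearMap, ?_, fun x y => ?_⟩
  · exact UniformSpace.Completion.denseRange_coe (α := X)
  · exact UniformSpace.Completion.inner_coe (𝕜 := ℝ) (E := X) x y

/-- extension by density -/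
theorem exists_extend {X H F : Type*} [AddCommGroup X] [Module ℝ X] [NormedAddCommGroup H]
    [NormedSpace ℝ H] [NormedAddCommGroup F] [NormedSpace ℝ F] [CompleteSpace F]
    {ι : X →ₗ[ℝ] H} (hd : DenseRange ι) (f : X →ₗ[ℝ] F) {c : ℝ} (hc : 0 ≤ c)
    (h : ∀ x, ‖f x‖ ≤ c * ‖ι x‖) : ∃ φ : H →L[ℝ] F, ‖φ‖ ≤ c ∧ ∀ x, φ (ι x) = f x :=
  ⟨f.extendOfNorm ι, LinearMap.opNorm_extendOfNorm_le hd hc h,
    LinearMap.extendOfNorm_eq hd ⟨c, h⟩⟩

theorem norm_le_of_sq_le {a b : ℝ} (hb : 0 ≤ b) (h : a ^ 2 ≤ b ^ 2) : a ≤ b :=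
  (le_abs_self a).trans (abs_le_of_sq_le_sq h hb)

/-- **The step operator**: contraction plus finite rank. -/
theorem exists_step (P T : Type) [AddCommGroup P] [Module ℝ P] [AddCommGroup T] [Module ℝ T]
    (e : P →ₗ[ℝ] P →ₗ[ℝ] ℝ) (g : T →ₗ[ℝ] T →ₗ[ℝ] ℝ) (inn out : T →ₗ[ℝ] P)
    (N : ℕ) (l : Fin N → P →ₗ[ℝ] ℝ) (θ C : ℝ)
    (es : ∀ h k, e h k = e k h) (ep : ∀ h, 0 ≤ e h h) (gs : ∀ x y, g x y = g y x)
    (gp : ∀ x, 0 ≤ g x x) (hθ : 0 < θ) (hC : 0 ≤ C) (hl : ∀ i h, (l i h) ^ 2 ≤ C * e h h)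
    (hstep : ∀ x, e (out x) (out x) ≤
      θ ^ 2 * e (inn x) (inn x) + C * g x x + C * ∑ i, (l i (inn x)) ^ 2) :
    ∃ (H : Type) (_ : NormedAddCommGroup H) (_ : InnerProductSpace ℝ H) (_ : CompleteSpace H)
      (ι : P →ₗ[ℝ] H) (A : H →L[ℝ] H) (ℓ gv : Fin N → H), DenseRange ι ∧
      (∀ p, ‖ι p‖ ^ 2 = e p p) ∧ ‖A‖ ≤ θ ∧
      ∀ x, ‖ι (out x) - (A (ι (inn x)) + ∑ i, ⟪ℓ i, ι (inn x)⟫ • gv i)‖ ^ 2 ≤ C * g x x := by
  obtain ⟨H, _, _, _, ι, hd, hι⟩ := exists_hilbert P e es ep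
  have hn : ∀ p, ‖ι p‖ ^ 2 = e p p := fun p => by rw [← hι, real_inner_self_eq_norm_sq]
  have hsC : Real.sqrt C ^ 2 = C := Real.sq_sqrt hC
  have hℓ : ∀ i, ∃ v : H, ∀ p, ⟪v, ι p⟫ = l i p := by
    intro i
    obtain ⟨φ, -, hφ⟩ := exists_extend hd (l i) (Real.sqrt_nonneg C) (fun p => by
      refine norm_le_of_sq_le (by positivity) ?_
      rw [mul_pow, hsC, hn, Real.norm_eq_abs, sq_abs]
      exact hl i p)
    exact ⟨(InnerProductSpace.toDual ℝ H).symm φ, fun p => by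
      rw [InnerProductSpace.toDual_symm_apply, hφ]⟩
  choose ℓ hℓ using hℓ
  let b : T →ₗ[ℝ] T →ₗ[ℝ] ℝ := θ ^ 2 • e.compl₁₂ inn inn + C • g +
    C • ∑ i, (LinearMap.mul ℝ ℝ).compl₁₂ (l i ∘ₗ inn) (l i ∘ₗ inn)
  have hb : ∀ x y, b x y = θ ^ 2 * e (inn x) (inn y) + C * g x y +
      C * ∑ i, l i (inn x) * l i (inn y) := by
    intro x y
    simp [b, LinearMap.sum_apply]
  have hb' : ∀ x, b x x = θ ^ 2 * e (inn x) (inn x) + C * g x x + C * ∑ i, l i (inn x) ^ 2 := by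
    intro x
    rw [hb]
    simp only [sq]
  have hsum : ∀ x, 0 ≤ ∑ i, l i (inn x) ^ 2 := fun x => Finset.sum_nonneg fun _ _ => sq_nonneg _
  obtain ⟨Z, _, _, _, κ, hdκ, hκ⟩ := exists_hilbert T b (fun x y => by
      rw [hb, hb, es, gs]
      simp only [mul_comm (l _ (inn x))]) (fun x => by
      rw [hb']
      have := ep (inn x)
      have := gp x
      have := hsum x
      positivity)
  have hκn : ∀ x, ‖κ x‖ ^ 2 = θ ^ 2 * e (inn x) (inn x) + C * g x x +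
      C * ∑ i, l i (inn x) ^ 2 := fun x => by rw [← hb', ← hκ, real_inner_self_eq_norm_sq]
  obtain ⟨o, ho1, ho⟩ := exists_extend hdκ (ι ∘ₗ out) zero_le_one (fun x => by
    refine norm_le_of_sq_le (by positivity) ?_
    rw [one_mul, hκn, LinearMap.comp_apply, hn]
    exact hstep x)
  obtain ⟨I, hI1, hI⟩ := exists_extend hdκ (θ • (ι ∘ₗ inn)) zero_le_one (fun x => by
    refine norm_le_of_sq_le (by positivity) ?_
    rw [one_mul, hκn, LinearMap.smul_apply, LinearMap.comp_apply, norm_smul, mul_pow, hn,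
      Real.norm_eq_abs, sq_abs]
    have := mul_nonneg hC (gp x)
    have := mul_nonneg hC (hsum x)
    linarith)
  have hζ : ∀ i, ∃ ζ : Z, ∀ x, ⟪ζ, κ x⟫ = Real.sqrt C * l i (inn x) := by
    intro i
    obtain ⟨φ, -, hφ⟩ := exists_extend hdκ (Real.sqrt C • (l i ∘ₗ inn)) zero_le_one (fun x => by
      refine norm_le_of_sq_le (by positivity) ?_
      rw [one_mul, hκn, LinearMap.smul_apply, LinearMap.comp_apply, Real.norm_eq_abs, sq_abs,
        smul_eq_mul, mul_pow, hsC]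
      have h1 := mul_nonneg hC (gp x)
      have h2 := mul_nonneg (sq_nonneg θ) (ep (inn x))
      have h3 : l i (inn x) ^ 2 ≤ ∑ i, l i (inn x) ^ 2 :=
        Finset.single_le_sum (f := fun i => l i (inn x) ^ 2) (fun _ _ => sq_nonneg _)
          (Finset.mem_univ i)
      have h4 := mul_le_mul_of_nonneg_left h3 hC
      linarith)
    exact ⟨(InnerProductSpace.toDual ℝ Z).symm φ, fun x => by
      rw [InnerProductSpace.toDual_symm_apply, hφ]; rfl⟩
  choose ζ hζ using hζ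
  -- the observed part of the norm
  have hNκ : ∀ x, ‖I (κ x)‖ ^ 2 + ∑ i, ⟪ζ i, κ x⟫ ^ 2 = ‖κ x‖ ^ 2 - C * g x x := by
    intro x
    rw [hI, hκn, LinearMap.smul_apply, LinearMap.comp_apply, norm_smul, mul_pow, hn,
      Real.norm_eq_abs, sq_abs]
    simp only [hζ, mul_pow, hsC]
    rw [← Finset.mul_sum]
    ring
  have hN : ∀ z : Z, ‖I z‖ ^ 2 + ∑ i, ⟪ζ i, z⟫ ^ 2 ≤ ‖z‖ ^ 2 := by
    intro z
    refine hdκ.induction_on z (isClosed_le (by fun_prop) (by fun_prop)) fun x => ?_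
    rw [hNκ]
    have := mul_nonneg hC (gp x)
    linarith
  refine ⟨H, inferInstance, inferInstance, inferInstance, ι,
    θ • (o ∘L ContinuousLinearMap.adjoint I), ℓ, fun i => Real.sqrt C • o (ζ i), hd, hn, ?_,
    fun x => ?_⟩
  · rw [norm_smul, Real.norm_eq_abs, abs_of_pos hθ]
    refine mul_le_of_le_one_right hθ.le ((ContinuousLinearMap.opNorm_comp_le _ _).trans ?_)
    rw [LinearIsometryEquiv.norm_map]
    exact mul_le_one₀ ho1 (norm_nonneg _) hI1
  · set z := κ x with hz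
    set u : Z := ContinuousLinearMap.adjoint I (I z) + ∑ i, ⟪ζ i, z⟫ • ζ i with hu
    have hin : ∀ w : Z, ⟪u, w⟫ = ⟪I z, I w⟫ + ∑ i, ⟪ζ i, z⟫ * ⟪ζ i, w⟫ := by
      intro w
      rw [hu, inner_add_left, ContinuousLinearMap.adjoint_inner_left, sum_inner]
      simp only [real_inner_smul_left]
    have h1 : ⟪u, z⟫ = ‖z‖ ^ 2 - C * g x x := by
      rw [hin, real_inner_self_eq_norm_sq, ← hNκ]
      simp only [sq, hz]
    have h2 : ‖u‖ ^ 2 ≤ ‖z‖ ^ 2 - C * g x x := by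
      have a1 := hin u
      rw [real_inner_self_eq_norm_sq] at a1
      have a2 : ⟪I z, I u⟫ ≤ (‖I z‖ ^ 2 + ‖I u‖ ^ 2) / 2 := by
        have := real_inner_le_norm (I z) (I u)
        nlinarith [sq_nonneg (‖I z‖ - ‖I u‖)]
      have a3 : ∑ i, ⟪ζ i, z⟫ * ⟪ζ i, u⟫ ≤ (∑ i, ⟪ζ i, z⟫ ^ 2 + ∑ i, ⟪ζ i, u⟫ ^ 2) / 2 := by
        rw [← Finset.sum_add_distrib, Finset.sum_div]
        exact Finset.sum_le_sum fun i _ => by nlinarith [sq_nonneg (⟪ζ i, z⟫ - ⟪ζ i, u⟫)]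
      have a4 := hN u
      have a5 := hNκ x
      rw [← hz] at a5
      linarith
    have h3 : ‖z - u‖ ^ 2 ≤ C * g x x := by
      rw [norm_sub_sq_real, real_inner_comm, h1]
      linarith
    have h4 : ι (out x) - ((θ • (o ∘L ContinuousLinearMap.adjoint I)) (ι (inn x)) +
        ∑ i, ⟪ℓ i, ι (inn x)⟫ • Real.sqrt C • o (ζ i)) = o (z - u) := by
      rw [map_sub, hu, map_add, map_sum, hz, ho, hI]
      simp only [LinearMap.comp_apply, LinearMap.smul_apply, map_smul,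
        smul_apply, ContinuousLinearMap.comp_apply, hζ, hℓ, smul_smul,
        mul_comm (Real.sqrt C)]
    rw [h4]
    refine le_trans ?_ h3
    refine pow_le_pow_left₀ (norm_nonneg _) ?_ 2
    exact (o.le_opNorm _).trans (mul_le_of_le_one_left (norm_nonneg _) ho1)

end Vale.Agent.P264Z.A
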