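import Mathlib.Analysis.InnerProductSpace.Basic
import Mathlib.Analysis.Normed.Operator.Bilinear
import Mathlib.Analysis.Normed.Operator.BoundedLinearMaps
import Mathlib.LinearAlgebra.Dimension.Constructions
import Mathlib.LinearAlgebra.FiniteDimensional.Basic
import Mathlib.Analysis.SpecificLimits.Normed

/-!
# P264, block A: the Lyapunov form has finite negative index; splitting
-/

open scoped RealInnerProductSpace
open Finset Filter Topology

namespace Vale.Agent.P264Z.A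

variable {H : Type*} [NormedAddCommGroup H] [InnerProductSpace ℝ H]

theorem abs_Q_le (Q : H →L[ℝ] H →L[ℝ] ℝ) (v : H) : |Q v v| ≤ ‖Q‖ * ‖v‖ ^ 2 := by
  have := Q.le_opNorm₂ v v
  rw [Real.norm_eq_abs] at this
  nlinarith

/-- the form is nonnegative on a subspace of finite codimension -/
theorem finite_codim (Q : H →L[ℝ] H →L[ℝ] ℝ) (S A : H →L[ℝ] H) {N : ℕ} (ℓ : Fin N → H)
    {Γ κ : ℝ} (hκ0 : 0 ≤ κ) (hκ1 : κ < 1) (hA : ‖A‖ ≤ κ)
    (hS : ∀ v, (∀ i, ⟪ℓ i, v⟫ = 0) → S v = A v)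
    (hdp : ∀ v y, Q y y ≤ Q v v - ‖v‖ ^ 2 + Γ * ‖y - S v‖ ^ 2) :
    ∃ K : ℕ, ∀ v, (∀ k < K, ∀ i, ⟪ℓ i, (A ^ k) v⟫ = 0) → 0 ≤ Q v v := by
  have t : Tendsto (fun k : ℕ => ‖Q‖ * (κ ^ k) ^ 2) atTop (𝓝 (‖Q‖ * 0 ^ 2)) :=
    ((tendsto_pow_atTop_nhds_zero_of_lt_one hκ0 hκ1).pow 2).const_mul _
  rw [zero_pow two_ne_zero, mul_zero] at t
  obtain ⟨K, hK⟩ := eventually_atTop.1 (t.eventually (gt_mem_nhds one_pos))
  refine ⟨K + 1, fun v hv => ?_⟩
  have hs : ∀ k, (A ^ (k + 1)) v = A ((A ^ k) v) := fun k => by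
    simp only [pow_succ', mul_apply_eq_comp]
  have h1 : ∀ k ≤ K, Q ((A ^ (k + 1)) v) ((A ^ (k + 1)) v) ≤ Q v v - ‖v‖ ^ 2 := by
    intro k hk
    induction k with
    | zero =>
      have := hdp v ((A ^ (0 + 1)) v)
      rw [hS v (by simpa using hv 0 (by omega))] at this
      simpa using this
    | succ k ih =>
      have h2 := hdp ((A ^ (k + 1)) v) ((A ^ (k + 1 + 1)) v)
      rw [hS _ (hv (k + 1) (by omega)), ← hs, sub_self, norm_zero] at h2
      have h3 := ih (by omega)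
      nlinarith [sq_nonneg ‖(A ^ (k + 1)) v‖]
  have h2 : ∀ k, ‖(A ^ k) v‖ ≤ κ ^ k * ‖v‖ := by
    intro k
    induction k with
    | zero => simp
    | succ k ih =>
      rw [hs]
      calc ‖A ((A ^ k) v)‖ ≤ ‖A‖ * ‖(A ^ k) v‖ := A.le_opNorm _
        _ ≤ κ * (κ ^ k * ‖v‖) := mul_le_mul hA ih (norm_nonneg _) hκ0
        _ = _ := by ring
  have h3 := (abs_le.1 (abs_Q_le Q ((A ^ (K + 1)) v))).1
  have h4 : ‖Q‖ * ‖(A ^ (K + 1)) v‖ ^ 2 ≤ ‖v‖ ^ 2 := by
    calc ‖Q‖ * ‖(A ^ (K + 1)) v‖ ^ 2 ≤ ‖Q‖ * (κ ^ (K + 1) * ‖v‖) ^ 2 := by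
          gcongr; exact h2 _
      _ = ‖Q‖ * (κ ^ (K + 1)) ^ 2 * ‖v‖ ^ 2 := by ring
      _ ≤ 1 * ‖v‖ ^ 2 := by gcongr; exact (hK (K + 1) (by omega)).le
      _ = _ := one_mul _
  have h5 := h1 K le_rfl
  linarith

/-- negative orthonormal family -/
def NegON (Q : H →L[ℝ] H →L[ℝ] ℝ) {r : ℕ} (w : Fin r → H) : Prop :=
  ∀ i j, Q (w i) (w j) = if i = j then -1 else 0

theorem NegON.apply_sum {Q : H →L[ℝ] H →L[ℝ] ℝ} {r : ℕ} {w : Fin r → H} (h : NegON Q w)
    (a : Fin r → ℝ) (i : Fin r) : Q (w i) (∑ j, a j • w j) = -a i := by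
  rw [map_sum, Finset.sum_eq_single i]
  · rw [map_smul, h, if_pos rfl]; simp
  · intro j _ hj; rw [map_smul, h, if_neg (Ne.symm hj)]; simp
  · intro hi; exact absurd (mem_univ i) hi

theorem NegON.sum_sum {Q : H →L[ℝ] H →L[ℝ] ℝ} {r : ℕ} {w : Fin r → H} (h : NegON Q w)
    (a : Fin r → ℝ) : Q (∑ j, a j • w j) (∑ j, a j • w j) = -∑ j, a j ^ 2 := by
  have h1 : Q (∑ j, a j • w j) = ∑ j, a j • Q (w j) := by simp [map_sum]
  rw [h1, _root_.sum_apply, ← Finset.sum_neg_distrib]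
  refine Finset.sum_congr rfl fun i _ => ?_
  rw [smul_apply, h.apply_sum, smul_eq_mul]
  ring

/-- the remainder of `h` after removing the negative part -/
noncomputable def rem (Q : H →L[ℝ] H →L[ℝ] ℝ) {r : ℕ} (w : Fin r → H) (h : H) : H :=
  h - ∑ i, (-Q (w i) h) • w i

theorem NegON.apply_rem {Q : H →L[ℝ] H →L[ℝ] ℝ} {r : ℕ} {w : Fin r → H} (h : NegON Q w)
    (x : H) (i : Fin r) : Q (w i) (rem Q w x) = 0 := by
  rw [rem, map_sub, h.apply_sum]; ring

/-- **Splitting**: a maximal negative family inside a dense subspace. -/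
theorem exists_split {P : Type*} [AddCommGroup P] [Module ℝ P] (ι : P →ₗ[ℝ] H) (hd : DenseRange ι)
    (Q : H →L[ℝ] H →L[ℝ] ℝ) (hs : ∀ v w, Q v w = Q w v) {J : Type*} [Fintype J]
    (Φ : H →ₗ[ℝ] (J → ℝ)) (hΦ : ∀ v, Φ v = 0 → 0 ≤ Q v v) :
    ∃ (r : ℕ) (v : Fin r → P), NegON Q (fun i => ι (v i)) ∧
      ∀ h, 0 ≤ Q (rem Q (fun i => ι (v i)) h) (rem Q (fun i => ι (v i)) h) := by
  classical
  let pr : ℕ → Prop := fun r => ∃ v : Fin r → P, NegON Q (fun i => ι (v i))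
  have h0 : pr 0 := ⟨Fin.elim0, fun i => i.elim0⟩
  have hb : ∀ r, pr r → r ≤ Fintype.card J := by
    rintro r ⟨v, hv⟩
    let V : (Fin r → ℝ) →ₗ[ℝ] H := Fintype.linearCombination ℝ fun i => ι (v i)
    have hV : ∀ a, V a = ∑ j, a j • ι (v j) := fun a => Fintype.linearCombination_apply _ _ a
    have hinj : Function.Injective (Φ ∘ₗ V) := by
      rw [← LinearMap.ker_eq_bot, LinearMap.ker_eq_bot']
      intro a ha
      have h1 := hΦ (V a) ha
      rw [hV, hv.sum_sum] at h1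
      have h2 : ∑ j, a j ^ 2 = 0 :=
        le_antisymm (by linarith) (Finset.sum_nonneg fun _ _ => sq_nonneg _)
      funext j
      exact pow_eq_zero_iff two_ne_zero |>.1
        ((Finset.sum_eq_zero_iff_of_nonneg fun _ _ => sq_nonneg _).1 h2 j (mem_univ j))
    have := LinearMap.finrank_le_finrank_of_injective hinj
    simpa using this
  set r := Nat.findGreatest pr (Fintype.card J) with hr
  obtain ⟨v, hv⟩ : pr r := Nat.findGreatest_spec (Nat.zero_le _) h0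
  have hmax : ¬ pr (r + 1) := fun h =>
    Nat.findGreatest_is_greatest (Nat.lt_succ_self r) (hb _ h) h
  refine ⟨r, v, hv, fun h => ?_⟩
  have hc0 : Continuous (rem Q (fun i => ι (v i))) := by unfold rem; fun_prop
  refine hd.induction_on h (isClosed_le continuous_const
    ((Q.continuous.comp hc0).clm_apply hc0)) fun p => ?_
  by_contra hneg
  push Not at hneg
  set x := rem Q (fun i => ι (v i)) (ι p) with hx
  set p' : P := p - ∑ i, (-Q (ι (v i)) (ι p)) • v i with hp'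
  have hxp : ι p' = x := by
    rw [hp', hx, rem, map_sub, map_sum]
    simp only [map_smul]
  set c : ℝ := (Real.sqrt (-Q x x))⁻¹ with hc
  have hc2 : c * c * Q x x = -1 := by
    rw [hc, ← mul_inv, Real.mul_self_sqrt (by linarith)]
    field_simp [hneg.ne]
  have ho : ∀ i, Q (ι (v i)) x = 0 := fun i => hv.apply_rem _ i
  apply hmax
  refine ⟨Fin.cons (c • p') v, fun i j => ?_⟩
  refine Fin.cases ?_ (fun i => ?_) i <;> refine Fin.cases ?_ (fun j => ?_) j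
  · simp only [Fin.cons_zero, map_smul, hxp, smul_apply, smul_eq_mul, if_true]
    linarith
  · simp only [Fin.cons_zero, Fin.cons_succ, map_smul, hxp, smul_apply, smul_eq_mul]
    rw [hs, ho, if_neg (Fin.succ_ne_zero j).symm, mul_zero]
  · simp only [Fin.cons_zero, Fin.cons_succ, map_smul, hxp, smul_eq_mul]
    rw [ho, if_neg (Fin.succ_ne_zero i), mul_zero]
  · simp only [Fin.cons_succ, Fin.succ_inj]
    exact hv i j

end Vale.Agent.P264Z.A
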