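import Mathlib.Analysis.InnerProductSpace.LaxMilgram

/-!
# P264, block A: an indefinite Lyapunov form from the frequency condition (Riccati iteration)
-/

open scoped RealInnerProductSpace
open Finset Filter Topology

namespace Vale.Agent.P264Z.A

variable {H : Type*} [NormedAddCommGroup H] [InnerProductSpace ℝ H]

/-- the inner product as a continuous bilinear form -/
noncomputable def ipL (H : Type*) [NormedAddCommGroup H] [InnerProductSpace ℝ H] :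
    H →L[ℝ] H →L[ℝ] ℝ := innerSL ℝ

@[simp] theorem ipL_apply (v w : H) : ipL H v w = ⟪v, w⟫ := rfl

/-- cost of a path -/
noncomputable def Jc (S : H →L[ℝ] H) (Γ : ℝ) (n : ℕ) (y : ℕ → H) : ℝ :=
  ∑ k ∈ range n, (Γ * ‖y (k + 1) - S (y k)‖ ^ 2 - ‖y k‖ ^ 2)

/-- prepend a point to a path -/
def prep (v : H) (p : ℕ → H) : ℕ → H
  | 0 => v
  | k + 1 => p k

theorem Jc_prep (S : H →L[ℝ] H) (Γ : ℝ) (n : ℕ) (v : H) (p : ℕ → H) :
    Jc S Γ (n + 1) (prep v p) = Γ * ‖p 0 - S v‖ ^ 2 - ‖v‖ ^ 2 + Jc S Γ n p := by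
  rw [Jc, Finset.sum_range_succ', Jc, add_comm]
  rfl

/-- the form is symmetric and its values are costs of paths -/
def Good (S : H →L[ℝ] H) (Γ : ℝ) (n : ℕ) (q : H →L[ℝ] H →L[ℝ] ℝ) : Prop :=
  (∀ v w, q v w = q w v) ∧ ∀ v, ∃ y : ℕ → H, y 0 = v ∧ y (n + 1) = 0 ∧ Jc S Γ (n + 1) y = q v v

/-- the frequency condition in time domain -/
def Freq (S : H →L[ℝ] H) (γ : ℝ) : Prop := ∀ (n : ℕ) (y : ℕ → H), y 0 = 0 → y n = 0 →
  ∑ k ∈ range n, ‖y k‖ ^ 2 ≤ γ * ∑ k ∈ range n, ‖y (k + 1) - S (y k)‖ ^ 2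

theorem Good.lower {S : H →L[ℝ] H} {γ : ℝ} (hγ : 0 ≤ γ) (hf : Freq S γ) {n : ℕ}
    {q : H →L[ℝ] H →L[ℝ] ℝ} (hq : Good S (2 * γ) n q) (v : H) :
    -(2 * γ * ‖S v‖ ^ 2 + ‖v‖ ^ 2) ≤ q v v := by
  obtain ⟨y, hy0, hyn, hJ⟩ := hq.2 v
  have h1 := hf (n + 1) (prep 0 fun k => y (k + 1)) rfl (by
    cases n with
    | zero => exact hyn
    | succ n => exact hyn)
  rw [Finset.sum_range_succ', Finset.sum_range_succ'] at h1
  simp only [prep, map_zero, sub_zero, norm_zero, zero_add] at h1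
  rw [← hJ, Jc, Finset.sum_range_succ', Finset.sum_sub_distrib, ← Finset.mul_sum, hy0]
  have h2 : ‖y 1‖ ^ 2 ≤ 2 * ‖y 1 - S v‖ ^ 2 + 2 * ‖S v‖ ^ 2 := by
    have h3 : ‖y 1‖ ≤ ‖y 1 - S v‖ + ‖S v‖ := by
      simpa using norm_add_le (y 1 - S v) (S v)
    have h4 := pow_le_pow_left₀ (norm_nonneg _) h3 2
    nlinarith [sq_nonneg (‖y 1 - S v‖ - ‖S v‖)]
  have h5 : 0 ≤ ∑ k ∈ range n, ‖y (k + 1 + 1) - S (y (k + 1))‖ ^ 2 :=
    Finset.sum_nonneg fun _ _ => sq_nonneg _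
  have h6 := mul_le_mul_of_nonneg_left h2 hγ
  have h7 := mul_nonneg hγ h5
  simp only [zero_add]
  nlinarith

variable [CompleteSpace H]

theorem Good.step {S : H →L[ℝ] H} {γ : ℝ} (hf : Freq S γ) {n : ℕ}
    {q : H →L[ℝ] H →L[ℝ] ℝ} (hq : Good S (2 * γ) n q) :
    ∃ q' : H →L[ℝ] H →L[ℝ] ℝ, Good S (2 * γ) (n + 1) q' ∧
      (∀ v y, q' v v ≤ 2 * γ * ‖y - S v‖ ^ 2 - ‖v‖ ^ 2 + q y y) ∧
      ∀ v, ∃ y, q' v v = 2 * γ * ‖y - S v‖ ^ 2 - ‖v‖ ^ 2 + q y y := by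
  set Γ := 2 * γ with hΓ
  set B : H →L[ℝ] H →L[ℝ] ℝ := Γ • ipL H + q with hB
  have hBa : ∀ v w, B v w = Γ * ⟪v, w⟫ + q v w := fun v w => by simp [hB]
  have hBs : ∀ v w, B v w = B w v := fun v w => by rw [hBa, hBa, hq.1, real_inner_comm]
  have hBc : ∀ y, ‖y‖ ^ 2 ≤ B y y := by
    intro y
    obtain ⟨p, hp0, hpn, hJ⟩ := hq.2 y
    have h1 := hf (n + 2) (prep 0 p) rfl hpn
    have h2 := Jc_prep S Γ (n + 1) 0 p
    rw [hJ, hp0, map_zero, sub_zero, norm_zero, Jc, Finset.sum_sub_distrib,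
      ← Finset.mul_sum] at h2
    have h3 : ‖prep 0 p 1‖ ^ 2 ≤ ∑ k ∈ range (n + 2), ‖prep 0 p k‖ ^ 2 :=
      Finset.single_le_sum (f := fun k => ‖prep 0 p k‖ ^ 2) (fun _ _ => sq_nonneg _)
        (Finset.mem_range.2 (by omega))
    have h4 : prep 0 p 1 = y := hp0
    rw [h4] at h3
    rw [hBa, real_inner_self_eq_norm_sq]
    rw [hΓ] at h2 ⊢
    linarith
  have hco : IsCoercive B := ⟨1, one_pos, fun u => by rw [one_mul, ← sq]; exact hBc u⟩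
  set Y : H →L[ℝ] H := (hco.continuousLinearEquivOfBilin.symm : H →L[ℝ] H) ∘L (Γ • S) with hY
  have hYB : ∀ v w, B (Y v) w = Γ * ⟪S v, w⟫ := by
    intro v w
    rw [← hco.continuousLinearEquivOfBilin_apply, hY]
    simp [real_inner_smul_left]
  set q' : H →L[ℝ] H →L[ℝ] ℝ := Γ • (ipL H).bilinearComp S S - ipL H - B.bilinearComp Y Y
    with hq'
  have hq'a : ∀ v w, q' v w = Γ * ⟪S v, S w⟫ - ⟪v, w⟫ - B (Y v) (Y w) := fun v w => by
    simp [hq']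
  have key : ∀ v y, Γ * ‖y - S v‖ ^ 2 - ‖v‖ ^ 2 + q y y = q' v v + B (y - Y v) (y - Y v) := by
    intro v y
    have e1 : B (y - Y v) (y - Y v) = B y y - 2 * B (Y v) y + B (Y v) (Y v) := by
      simp only [map_sub, sub_apply]
      rw [hBs y (Y v)]; ring
    rw [e1, hq'a, hBa y y, hYB v y, norm_sub_sq_real, real_inner_self_eq_norm_sq,
      real_inner_self_eq_norm_sq, real_inner_self_eq_norm_sq, real_inner_comm]
    ring
  refine ⟨q', ⟨fun v w => ?_, fun v => ?_⟩, fun v y => ?_, fun v => ⟨Y v, ?_⟩⟩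
  · rw [hq'a, hq'a, hBs, real_inner_comm (S v), real_inner_comm v]
  · obtain ⟨p, hp0, hpn, hJ⟩ := hq.2 (Y v)
    refine ⟨prep v p, rfl, hpn, ?_⟩
    rw [Jc_prep, hJ, hp0, key]
    simp
  · rw [key]
    have := hBc (y - Y v)
    nlinarith [sq_nonneg ‖y - Y v‖]
  · rw [key]; simp

omit [CompleteSpace H] in
theorem bilin_bound (b : H →ₗ[ℝ] H →ₗ[ℝ] ℝ) {M : ℝ}
    (h : ∀ v w, |b v w| ≤ M * (‖v‖ ^ 2 + ‖w‖ ^ 2) / 2) (v w : H) : ‖b v w‖ ≤ M * ‖v‖ * ‖w‖ := by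
  by_cases hv : v = 0
  · simp [hv]
  by_cases hw : w = 0
  · simp [hw]
  have hv0 : 0 < ‖v‖ := norm_pos_iff.2 hv
  have hw0 : 0 < ‖w‖ := norm_pos_iff.2 hw
  have h1 := h (‖w‖ • v) (‖v‖ • w)
  simp only [map_smul, LinearMap.smul_apply, smul_eq_mul, norm_smul, norm_norm, abs_mul,
    abs_norm] at h1
  rw [Real.norm_eq_abs]
  apply le_of_mul_le_mul_left _ (mul_pos hv0 hw0)
  linarith

/-- **Lyapunov form.** -/
theorem exists_lyap (S : H →L[ℝ] H) {γ : ℝ} (hγ : 0 ≤ γ) (hf : Freq S γ) :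
    ∃ Q : H →L[ℝ] H →L[ℝ] ℝ, (∀ v w, Q v w = Q w v) ∧
      ∀ v y, Q y y ≤ Q v v - ‖v‖ ^ 2 + 2 * γ * ‖y - S v‖ ^ 2 := by
  set q0 : H →L[ℝ] H →L[ℝ] ℝ := (2 * γ) • (ipL H).bilinearComp S S - ipL H with hq0
  have hq0a : ∀ v w, q0 v w = 2 * γ * ⟪S v, S w⟫ - ⟪v, w⟫ := fun v w => by simp [hq0]
  have hq0v : ∀ v, q0 v v = 2 * γ * ‖S v‖ ^ 2 - ‖v‖ ^ 2 := fun v => by
    rw [hq0a, real_inner_self_eq_norm_sq, real_inner_self_eq_norm_sq]
  have hg0 : Good S (2 * γ) 0 q0 := by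
    refine ⟨fun v w => by rw [hq0a, hq0a, real_inner_comm (S v), real_inner_comm v], fun v => ?_⟩
    refine ⟨prep v fun _ => 0, rfl, rfl, ?_⟩
    rw [Jc_prep, hq0v]
    simp [Jc]
  choose st hst1 hst2 hst3 using fun (n : ℕ) (q : {q // Good S (2 * γ) n q}) => q.2.step hf
  let sq : ∀ n : ℕ, {q // Good S (2 * γ) n q} := fun n =>
    Nat.rec (motive := fun n => {q // Good S (2 * γ) n q}) ⟨q0, hg0⟩
      (fun n q => ⟨st n q, hst1 n q⟩) n
  set q : ℕ → H →L[ℝ] H →L[ℝ] ℝ := fun n => (sq n).1 with hq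
  have hq0' : q 0 = q0 := rfl
  have hgood : ∀ n, Good S (2 * γ) n (q n) := fun n => (sq n).2
  have hdp : ∀ n v y, q (n + 1) v v ≤ 2 * γ * ‖y - S v‖ ^ 2 - ‖v‖ ^ 2 + q n y y :=
    fun n => hst2 n (sq n)
  have hat : ∀ n v, ∃ y, q (n + 1) v v = 2 * γ * ‖y - S v‖ ^ 2 - ‖v‖ ^ 2 + q n y y :=
    fun n => hst3 n (sq n)
  have hmono : ∀ n v, q (n + 1) v v ≤ q n v v := by
    intro n
    induction n with
    | zero =>
      intro v
      have := hdp 0 v 0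
      rw [hq0', hq0v v]
      simpa using this
    | succ n ih =>
      intro v
      obtain ⟨y, hy⟩ := hat n v
      have h1 := hdp (n + 1) v y
      have h2 := ih y
      linarith
  have hanti : ∀ v, Antitone fun n => q n v v := fun v => antitone_nat_of_succ_le fun n => hmono n v
  set M : ℝ := 2 * γ * ‖S‖ ^ 2 + 1 with hM
  have hbd : ∀ n v, |q n v v| ≤ M * ‖v‖ ^ 2 := by
    intro n v
    have h1 := (hgood n).lower hγ hf v
    have h2 : q n v v ≤ q 0 v v := hanti v (Nat.zero_le n)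
    rw [hq0', hq0v] at h2
    have h3 : ‖S v‖ ^ 2 ≤ ‖S‖ ^ 2 * ‖v‖ ^ 2 := by
      rw [← mul_pow]; exact pow_le_pow_left₀ (norm_nonneg _) (S.le_opNorm v) 2
    have h4 := mul_le_mul_of_nonneg_left h3 (show 0 ≤ 2 * γ by positivity)
    rw [abs_le, hM]
    constructor <;> nlinarith [sq_nonneg ‖v‖]
  have hpol : ∀ n v w, q n v w = (q n (v + w) (v + w) - q n (v - w) (v - w)) / 4 := by
    intro n v w
    simp only [map_add, map_sub, add_apply, sub_apply]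
    rw [(hgood n).1 w v]; ring
  have hlim1 : ∀ v, ∃ x, Tendsto (fun n => q n v v) atTop (𝓝 x) := fun v =>
    ⟨_, tendsto_atTop_ciInf (hanti v) ⟨-(M * ‖v‖ ^ 2), by
      rintro _ ⟨n, rfl⟩; exact (abs_le.1 (hbd n v)).1⟩⟩
  have hlim : ∀ v w, ∃ x, Tendsto (fun n => q n v w) atTop (𝓝 x) := by
    intro v w
    obtain ⟨x, hx⟩ := hlim1 (v + w)
    obtain ⟨x', hx'⟩ := hlim1 (v - w)
    refine ⟨(x - x') / 4, ?_⟩
    simp only [hpol _ v w]
    exact (hx.sub hx').div_const 4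
  choose f hf' using hlim
  let b : H →ₗ[ℝ] H →ₗ[ℝ] ℝ := LinearMap.mk₂ ℝ f
    (fun v v' w => tendsto_nhds_unique (hf' _ _) (by
      simpa using (hf' v w).add (hf' v' w)))
    (fun c v w => tendsto_nhds_unique (hf' _ _) (by
      simpa using (hf' v w).const_mul c))
    (fun v w w' => tendsto_nhds_unique (hf' _ _) (by
      simpa using (hf' v w).add (hf' v w')))
    (fun c v w => tendsto_nhds_unique (hf' _ _) (by
      simpa using (hf' v w).const_mul c))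
  have hb : ∀ v w, b v w = f v w := fun _ _ => rfl
  have hbb : ∀ v w, |b v w| ≤ M * (‖v‖ ^ 2 + ‖w‖ ^ 2) / 2 := by
    intro v w
    rw [hb]
    refine le_of_tendsto' (hf' v w).abs fun n => ?_
    rw [hpol]
    have h1 := abs_le.1 (hbd n (v + w))
    have h2 := abs_le.1 (hbd n (v - w))
    have h3 : ‖v + w‖ ^ 2 + ‖v - w‖ ^ 2 = 2 * (‖v‖ ^ 2 + ‖w‖ ^ 2) := by
      rw [norm_add_sq_real, norm_sub_sq_real]; ring
    have h4 : M * ‖v + w‖ ^ 2 + M * ‖v - w‖ ^ 2 = 2 * (M * (‖v‖ ^ 2 + ‖w‖ ^ 2)) := by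
      rw [← mul_add, h3]; ring
    rw [abs_le]
    constructor <;> linarith
  refine ⟨-(b.mkContinuous₂ M (bilin_bound b hbb)), fun v w => ?_, fun v y => ?_⟩
  · simp only [neg_apply, LinearMap.mkContinuous₂_apply, hb, neg_inj]
    refine tendsto_nhds_unique (hf' v w) ?_
    simp only [fun n => (hgood n).1 v w]
    exact hf' w v
  · simp only [neg_apply, LinearMap.mkContinuous₂_apply, hb]
    have t1 : Tendsto (fun n => q (n + 1) v v) atTop (𝓝 (f v v)) :=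
      (hf' v v).comp (tendsto_add_atTop_nat 1)
    have t2 : Tendsto (fun n => 2 * γ * ‖y - S v‖ ^ 2 - ‖v‖ ^ 2 + q n y y) atTop
        (𝓝 (2 * γ * ‖y - S v‖ ^ 2 - ‖v‖ ^ 2 + f y y)) := tendsto_const_nhds.add (hf' y y)
    have := le_of_tendsto_of_tendsto' t1 t2 fun n => hdp n v y
    linarith

end Vale.Agent.P264Z.A
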