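import Vale.Agent.P264Z.Iface
import Vale.Agent.P264Z.A.Hilb
import Vale.Agent.P264Z.A.Freq
import Vale.Agent.P264Z.A.Lyap
import Vale.Agent.P264Z.A.Deg

/-!
# P264, block A: the abstract shooting theorem
-/

open scoped RealInnerProductSpace
open Set Metric

namespace Vale.Agent.P264Z

open A

/-- **The abstract shooting theorem.** -/
theorem shooting : Shooting := by
  intro P T _ _ _ _ e g inn out N l θ C es ep gs gp hθ0 hθ1 hC hl hstep
  obtain ⟨H, _, _, _, ι, A, ℓ, gv, hd, hn, hA, hst⟩ :=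
    exists_step P T e g inn out N l θ C es ep gs gp hθ0 hC hl hstep
  obtain ⟨ρ, γ, hρ1, hρθ, hγ, hfreq⟩ := exists_freq A ℓ gv hθ0 hθ1 hA
  have hρ0 : 0 < ρ := by linarith
  set S : H →L[ℝ] H := ρ • (A + ∑ i, (innerSL ℝ (ℓ i)).smulRight (gv i)) with hS
  have hSa : ∀ v, S v = ρ • (A v + ∑ i, ⟪ℓ i, v⟫ • gv i) := fun v => by
    simp [hS, _root_.sum_apply]
  have hf : Freq S γ := fun n y h0 h1 => by
    simp only [hSa]; exact hfreq n y h0 h1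
  obtain ⟨Q, hQs, hdp⟩ := exists_lyap S hγ hf
  obtain ⟨K, hK⟩ := finite_codim Q S (ρ • A) ℓ (κ := ρ * θ) (by positivity) hρθ (by
      rw [norm_smul, Real.norm_eq_abs, abs_of_pos hρ0]; gcongr)
    (fun v hv => by simp [hSa, hv]) hdp
  let Φ : H →ₗ[ℝ] (Fin K × Fin N → ℝ) := LinearMap.pi fun p =>
    ((innerSL ℝ (ℓ p.2)).comp ((ρ • A) ^ (p.1 : ℕ)) : H →L[ℝ] ℝ)
  obtain ⟨r, v, hw, hrem⟩ := exists_split ι hd Q hQs Φ fun u hu => hK u fun k hk i =>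
    congrFun hu (⟨k, hk⟩, i)
  obtain ⟨C0, δ, hC0, hδ, hsh⟩ := shoot_H Q hQs S (Γ := 2 * γ) (by positivity) hdp hw hrem
  have hsC : 0 ≤ Real.sqrt C := Real.sqrt_nonneg C
  refine ⟨ρ⁻¹, r, v, C0, δ / (ρ * (Real.sqrt C + 1)), ?_, inv_lt_one_of_one_lt₀ hρ1, hC0,
    by positivity, fun ε x hε h0 hlink hcont hg => ?_⟩
  · rw [lt_inv_comm₀ hθ0 hρ0, ← one_div, lt_div_iff₀ hθ0]; exact hρθ
  have hz : ∀ p, e p p = 0 → ι p = 0 := fun p hp => by
    rw [← hn] at hp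
    exact norm_eq_zero.1 (pow_eq_zero_iff two_ne_zero |>.1 hp)
  have hc : ∀ k : ℕ, 0 < ε * ρ⁻¹ ^ k := fun k => by positivity
  set y : ℕ → (Fin r → ℝ) → H := fun k a => (ε * ρ⁻¹ ^ k)⁻¹ • ι (inn (x k a)) with hy
  have hyn : ∀ k a, ‖y k a‖ ≤ C0 ↔ e (inn (x k a)) (inn (x k a)) ≤ (C0 * ε * ρ⁻¹ ^ k) ^ 2 := by
    intro k a
    have h1 := hc k
    simp only [hy]
    rw [norm_smul, Real.norm_eq_abs, abs_of_pos (inv_pos.2 h1), inv_mul_le_iff₀ h1, ← hn,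
      pow_le_pow_iff_left₀ (norm_nonneg _) (by positivity) two_ne_zero]
    rw [show C0 * ε * ρ⁻¹ ^ k = ε * ρ⁻¹ ^ k * C0 by ring]
  suffices h : ∃ a, ‖a‖ ≤ 1 ∧ ∀ k, ‖y k a‖ ≤ C0 by
    obtain ⟨a, ha, hb⟩ := h
    exact ⟨a, ha, fun k => (hyn k a).1 (hb k)⟩
  refine hsh y (fun a ha => ?_) (fun k => ?_) (fun k a ha hk => ?_)
  · have h1 := hz _ (h0 a ha)
    rw [map_sub, sub_eq_zero] at h1
    simp only [hy, h1, pow_zero, mul_one, map_smul, map_sum]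
    rw [smul_smul, inv_mul_cancel₀ hε.ne', one_smul]
  · refine ContinuousOn.const_smul (g := fun a => ι (inn (x k a))) ?_ _
    rw [Metric.continuousOn_iff]
    intro a₀ ha₀ η hη
    obtain ⟨ρ', hρ', h1⟩ := hcont k a₀ (by simpa using ha₀) (η ^ 2) (by positivity)
    refine ⟨ρ', hρ', fun a ha hd => ?_⟩
    have h2 := h1 a (by simpa using ha) (by rwa [← dist_eq_norm])
    rw [← hn, map_sub] at h2
    rw [dist_eq_norm]
    exact lt_of_pow_lt_pow_left₀ 2 hη.le h2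
  · have h1 := hg k a ha fun j hj => (hyn j a).1 (hk j hj)
    have h2 := hz _ (hlink k a ha)
    rw [map_sub, sub_eq_zero] at h2
    have h3 := hst (x k a)
    set D := ι (out (x k a)) - (A (ι (inn (x k a))) + ∑ i, ⟪ℓ i, ι (inn (x k a))⟫ • gv i) with hD
    have h4 : y (k + 1) a - S (y k a) = (ρ * (ε * ρ⁻¹ ^ k)⁻¹) • D := by
      simp only [hy]
      rw [map_smul, hSa, h2, hD, smul_sub, smul_smul]
      congr 2
      · rw [pow_succ]; field_simp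
      · ring
    have h5 : ‖D‖ ≤ Real.sqrt C * (δ / (ρ * (Real.sqrt C + 1)) * ε * ρ⁻¹ ^ k) := by
      refine norm_le_of_sq_le (by positivity) ?_
      rw [mul_pow, Real.sq_sqrt hC]
      exact h3.trans (by gcongr)
    have h6 := hc k
    rw [h4, norm_smul, Real.norm_eq_abs, abs_of_pos (by positivity)]
    calc ρ * (ε * ρ⁻¹ ^ k)⁻¹ * ‖D‖
        ≤ ρ * (ε * ρ⁻¹ ^ k)⁻¹ * (Real.sqrt C * (δ / (ρ * (Real.sqrt C + 1)) * ε * ρ⁻¹ ^ k)) := by
          gcongr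
      _ = δ * (Real.sqrt C / (Real.sqrt C + 1)) := by field_simp
      _ ≤ δ * 1 := by gcongr; rw [div_le_one (by positivity)]; linarith
      _ = δ := mul_one δ

end Vale.Agent.P264Z
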